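import Vale.Agent.P166.NW.Spec.Base
import Vale.Agent.P166.NW.Defs
import Vale.Agent.P166.Wishart.Limit
import Vale.Agent.P157.Parisi.Main.Energy

/-!
The mean pressure of the perceptron with quadratic potential is that of the negative Wishart
couplings.
-/

noncomputable section

open MeasureTheory ProbabilityTheory Filter Matrix
open scoped Topology

namespace Vale.Agent.P166.NW.Spec

open Vale.Agent.P157 (patterns isingLaw meanPressure)
open Vale.Agent.P166.Wishart (matrixPressure wishart quad_vecMulVec)

variable {M N : ℕ}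

theorem smul_gram (t : ℝ) (g : Fin M → Fin N → ℝ) : t • gram g = wishart t g := by
  rw [gram, wishart, smul_smul, div_eq_mul_inv]
  congr 1
  ext i j
  simp [Matrix.mul_apply, Matrix.sum_apply, Matrix.vecMulVec_apply]

/-- `E p_N` for the quadratic potential is the expected pressure of `-(t/N) Gᵀ G`. -/
theorem meanPressure_quad (β t α : ℝ) (N : ℕ) :
    meanPressure isingLaw α (quadPot (β * t)) N =
      ∫ g, matrixPressure β (wishart (-t) g) ∂patterns ⌊α * N⌋₊ N := by
  refine integral_congr_ae (Eventually.of_forall fun g => ?_)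
  dsimp only
  have hq : Measurable (quadPot (β * t)) := by unfold quadPot; fun_prop
  rw [Vale.Agent.P157.Parisi.Main.integral_rad_pi _ (by fun_prop), matrixPressure, one_div_mul_eq_div,
    div_eq_inv_mul _ ((2 : ℝ) ^ N)]
  congr 3
  refine Finset.sum_congr rfl fun σ _ => ?_
  congr 1
  simp only [wishart, Matrix.smul_mulVec, Matrix.sum_mulVec, dotProduct_smul, dotProduct_sum,
    quad_vecMulVec, smul_eq_mul, Finset.mul_sum]
  refine Finset.sum_congr rfl fun k _ => ?_
  have e : (∑ i, g k i * Vale.Agent.P157.Parisi.sv σ i) =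
      (fun i => if σ i then (1 : ℝ) else -1) ⬝ᵥ g k := by
    simp only [dotProduct, Vale.Agent.P157.Parisi.sv]
    exact Finset.sum_congr rfl fun i _ => mul_comm _ _
  rw [e, quadPot, div_pow, Real.sq_sqrt (Nat.cast_nonneg N)]
  ring

end Vale.Agent.P166.NW.Spec
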