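import Vale.Agent.P157.Defs

/-!
Objects and interfaces for the spectral side of the negative Wishart formula: the couplings
`W = N⁻¹ Gᵀ G`, their eigenvalues, and the Marchenko–Pastur law given by its Stieltjes transform.
-/

noncomputable section

open MeasureTheory ProbabilityTheory Filter Matrix
open scoped Topology BoundedContinuousFunction

namespace Vale.Agent.P166.NW.Spec

open Vale.Agent.P157 (patterns)

variable {M N : ℕ}

/-- The matrix `N⁻¹ Gᵀ G` of an array `G`. -/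
def gram (g : Fin M → Fin N → ℝ) : Matrix (Fin N) (Fin N) ℝ :=
  (N : ℝ)⁻¹ • ((Matrix.of g)ᵀ * Matrix.of g)

theorem gram_posSemidef (g : Fin M → Fin N → ℝ) : (gram g).PosSemidef := by
  refine Matrix.PosSemidef.smul ?_ (by positivity)
  simpa [conjTranspose_eq_transpose_of_trivial] using
    Matrix.posSemidef_conjTranspose_mul_self (Matrix.of g)

/-- The eigenvalues of `N⁻¹ Gᵀ G`. -/
def specVals (g : Fin M → Fin N → ℝ) : Fin N → ℝ :=
  (gram_posSemidef g).isHermitian.eigenvalues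

/-- The Stieltjes transform of the Marchenko–Pastur law of rate `α`: the positive root of
`s G² + (s + α - 1) G - 1 = 0`. -/
def mpStieltjes (α s : ℝ) : ℝ :=
  (Real.sqrt ((s + α - 1) ^ 2 + 4 * s) - (s + α - 1)) / (2 * s)

/-- The Marchenko–Pastur law of rate `α`, characterised by its Stieltjes transform. -/
def IsMP (α : ℝ) (μ : Measure ℝ) : Prop :=
  IsProbabilityMeasure μ ∧ IsCompact μ.support ∧ μ.support ⊆ Set.Ici 0 ∧
    ∀ s, 0 < s → ∫ x, (x + s)⁻¹ ∂μ = mpStieltjes α s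

/-! ### Interfaces -/

/-- The resolvent trace converges in probability. -/
def ResolventStmt : Prop :=
  ∀ α : ℝ, 0 < α → ∀ s : ℝ, 0 < s → ∀ δ : ℝ, 0 < δ →
    Tendsto (fun N : ℕ => (patterns ⌊α * N⌋₊ N).real
      {g | δ < |(∑ i, (specVals g i + s)⁻¹) / N - mpStieltjes α s|}) atTop (𝓝 0)

/-- The largest eigenvalue is bounded in probability. -/
def NormStmt : Prop :=
  ∀ α : ℝ, 0 < α → ∃ C : ℝ, Tendsto (fun N : ℕ => (patterns ⌊α * N⌋₊ N).real
    {g | ∃ i, C < specVals g i}) atTop (𝓝 0)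

/-- The smallest eigenvalue does not fall below the edge. -/
def EdgeStmt : Prop :=
  ∀ α : ℝ, 1 < α → ∀ δ : ℝ, 0 < δ → Tendsto (fun N : ℕ => (patterns ⌊α * N⌋₊ N).real
    {g | ∃ i, specVals g i < (Real.sqrt α - 1) ^ 2 - δ}) atTop (𝓝 0)

/-- The support of the law reaches down to the edge. -/
def SupportStmt : Prop :=
  ∀ α : ℝ, 0 < α → ∀ μ : Measure ℝ, IsMP α μ →
    sInf μ.support ≤ max (Real.sqrt α - 1) 0 ^ 2

/-- The law exists. -/
def ExistsStmt : Prop :=
  ∀ α : ℝ, 0 < α → ∃ μ : Measure ℝ, IsMP α μ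

/-- Convergence of resolvents at `1, 2, …` gives weak convergence, for bounded nonnegative
spectra. -/
def WeakStmt : Prop :=
  ∀ (α C : ℝ) (μ : Measure ℝ), IsMP α μ → ∀ lam : ∀ N, Fin N → ℝ,
    (∀ᶠ N in atTop, ∀ i, lam N i ∈ Set.Icc 0 C) →
    (∀ n : ℕ, Tendsto (fun N => (∑ i, (lam N i + (n + 1 : ℝ))⁻¹) / (N : ℝ)) atTop
      (𝓝 (mpStieltjes α (n + 1)))) →
    ∀ f : ℝ →ᵇ ℝ, Tendsto (fun N => (∑ i, f (lam N i)) / (N : ℝ)) atTop (𝓝 (∫ x, f x ∂μ))

end Vale.Agent.P166.NW.Spec
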