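import Vale.Agent.P166.NW.Spec.Gordon
import Vale.Agent.P347.Poincare
import Vale.Agent.P157.Defs

/-!
Expected extreme values of a Gaussian bilinear form on finite sets of directions, and the variance
of Lipschitz functions of Gaussian arrays.
-/

noncomputable section

open MeasureTheory ProbabilityTheory Set Filter
open scoped BigOperators Topology

namespace Vale.Agent.P166.NW.Spec

open Vale.Agent.P166.Wishart (heat fld cu covDiff)
open Vale.Agent.P146 (gauss)
open Vale.Agent.P157 (patterns)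

instance {ι : Type*} [Fintype ι] : IsProbabilityMeasure (gauss ι) := by unfold gauss; infer_instance

instance (M N : ℕ) : IsProbabilityMeasure (patterns M N) := by unfold patterns; infer_instance

/-- The bilinear form of an array. -/
def bil {M N : ℕ} (G : Fin M → Fin N → ℝ) (v : Fin M → ℝ) (u : Fin N → ℝ) : ℝ :=
  ∑ a, ∑ i, G a i * (v a * u i)

/-- The array of a vector indexed by pairs. -/
def mat {M N : ℕ} (g : Fin M × Fin N → ℝ) : Fin M → Fin N → ℝ := fun a i => g (a, i)

lemma mat_preserving (M N : ℕ) :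
    MeasurePreserving (mat (M := M) (N := N)) (gauss (Fin M × Fin N)) (patterns M N) := by
  have hm : Measurable (mat (M := M) (N := N)) :=
    measurable_pi_lambda _ fun a => measurable_pi_lambda _ fun i => measurable_pi_apply (a, i)
  have hm' : Measurable fun (G : Fin M → Fin N → ℝ) (p : Fin M × Fin N) => G p.1 p.2 :=
    measurable_pi_lambda _ fun p => (measurable_pi_apply p.2).comp (measurable_pi_apply p.1)
  have h : (patterns M N).map (fun G (p : Fin M × Fin N) => G p.1 p.2) = gauss (Fin M × Fin N) := by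
    refine (Measure.pi_eq fun s hs => ?_).symm
    rw [Measure.map_apply hm' (MeasurableSet.univ_pi hs)]
    have : (fun (G : Fin M → Fin N → ℝ) (p : Fin M × Fin N) => G p.1 p.2) ⁻¹' Set.univ.pi s =
        Set.univ.pi fun a => Set.univ.pi fun i => s (a, i) := by
      ext G; simp [Prod.forall]
    rw [this]
    simp only [patterns, Measure.pi_pi]
    rw [Fintype.prod_prod_type]
  refine ⟨hm, ?_⟩
  rw [← h, Measure.map_map hm hm']
  exact Measure.map_id

/-! ### Lipschitz functions of a Gaussian vector -/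

/-- The Euclidean norm. -/
def nv {ι : Type*} [Fintype ι] (x : ι → ℝ) : ℝ := √(∑ i, x i ^ 2)

variable {ι : Type*} [Fintype ι]

lemma nv_nonneg (x : ι → ℝ) : 0 ≤ nv x := Real.sqrt_nonneg _

lemma nv_eq_norm (x : ι → ℝ) : nv x = ‖WithLp.toLp 2 x‖ := by
  simp [nv, EuclideanSpace.norm_eq]

lemma nv_sub_le (x y : ι → ℝ) : |nv x - nv y| ≤ nv (x - y) := by
  simp only [nv_eq_norm, WithLp.toLp_sub]
  exact abs_norm_sub_norm_le _ _

lemma nv_sq (x : ι → ℝ) : nv x ^ 2 = ∑ i, x i ^ 2 :=
  Real.sq_sqrt (Finset.sum_nonneg fun _ _ => sq_nonneg _)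

lemma dot_le_nv (x y : ι → ℝ) : ∑ i, x i * y i ≤ nv x * nv y :=
  Real.sum_mul_le_sqrt_mul_sqrt _ _ _

lemma toEuclid_preserving :
    MeasurePreserving (fun (z : P347.E (Fintype.card ι)) (i : ι) => z (Fintype.equivFin ι i))
      (stdGaussian (P347.E (Fintype.card ι))) (gauss ι) := by
  have hm : Measurable fun (z : P347.E (Fintype.card ι)) (i : ι) => z (Fintype.equivFin ι i) :=
    (continuous_pi fun i => (EuclideanSpace.proj _).continuous).measurable
  refine ⟨hm, ?_⟩
  rw [← map_pi_eq_stdGaussian, Measure.map_map hm (WithLp.measurable_toLp 2 _)]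
  refine Eq.trans ?_ (measurePreserving_piCongrLeft (fun _ : ι => gaussianReal 0 1)
    (Fintype.equivFin ι).symm).map_eq
  congr 1
  funext x i
  simp [MeasurableEquiv.coe_piCongrLeft, Equiv.piCongrLeft_apply]

/-- Integrability and variance of Lipschitz functions. -/
theorem lip_var {f : (ι → ℝ) → ℝ} {A : ℝ} (hA : 0 ≤ A)
    (hf : ∀ x y, |f x - f y| ≤ A * nv (x - y)) :
    Continuous f ∧ Integrable f (gauss ι) ∧ Integrable (fun x => f x ^ 2) (gauss ι) ∧
      ∫ x, (f x - ∫ y, f y ∂gauss ι) ^ 2 ∂gauss ι ≤ 4 * A ^ 2 := by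
  set T := fun (z : P347.E (Fintype.card ι)) (i : ι) => z (Fintype.equivFin ι i) with hT
  have hcont : Continuous f := by
    refine continuous_iff_continuousAt.2 fun x => tendsto_iff_dist_tendsto_zero.2 ?_
    refine squeeze_zero (fun y => dist_nonneg) (g := fun y => A * nv (y - x)) (fun y => hf y x) ?_
    have : Continuous fun y => A * nv (y - x) := by unfold nv; fun_prop
    simpa [nv] using this.tendsto x
  have hp : MeasurePreserving T (stdGaussian _) (gauss ι) := toEuclid_preserving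
  have hL : P347.WLip (f ∘ T) A 0 := by
    refine ⟨hA, le_rfl, fun z w => (hf _ _).trans_eq ?_⟩
    have : nv (T z - T w) = ‖z - w‖ := by
      rw [nv, EuclideanSpace.norm_eq]
      refine congrArg Real.sqrt ?_
      rw [← Equiv.sum_comp (Fintype.equivFin ι) fun j => ‖(z - w) j‖ ^ 2]
      simp [hT]
    rw [this]; ring
  have hb := hL.polyBd
  have i1 : Integrable (f ∘ T) (stdGaussian _) := hb.integrable _ hL.continuous.aestronglyMeasurable
  have i2 : Integrable (fun z => (f ∘ T) z ^ 2) (stdGaussian _) :=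
    (hb.pow 2).integrable _ (hL.continuous.pow 2).aestronglyMeasurable
  refine ⟨hcont, (hp.integrable_comp hcont.aestronglyMeasurable).1 i1,
    (hp.integrable_comp (g := fun x => f x ^ 2) (hcont.pow 2).aestronglyMeasurable).1 i2, ?_⟩
  have e : ∀ φ : (ι → ℝ) → ℝ, Continuous φ → ∫ x, φ x ∂gauss ι = ∫ z, φ (T z) ∂stdGaussian _ :=
    fun φ hφ => by
      rw [← hp.map_eq, integral_map hp.measurable.aemeasurable hφ.aestronglyMeasurable]
  rw [e f hcont, e (fun x => (f x - ∫ z, f (T z) ∂stdGaussian _) ^ 2)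
    ((hcont.sub continuous_const).pow 2)]
  simpa using P347.gauss_var hL

lemma nv_lip (x y : ι → ℝ) : |nv x - nv y| ≤ 1 * nv (x - y) := (nv_sub_le x y).trans_eq (one_mul _).symm

lemma integral_nv_sq : ∫ x, nv x ^ 2 ∂gauss ι = Fintype.card ι := by
  have h1 : ∫ t, t ^ 2 ∂gaussianReal 0 1 = 1 := by
    have h := variance_id_gaussianReal (μ := 0) (v := 1)
    rw [variance_eq_integral measurable_id.aemeasurable] at h
    simpa using h
  simp only [nv_sq]
  rw [integral_finsetSum _ fun i _ => ?_]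
  · simp only [gauss, integral_comp_eval (μ := fun _ : ι => gaussianReal 0 1)
      (f := fun t => t ^ 2) (by fun_prop : AEStronglyMeasurable (fun t : ℝ => t ^ 2) _), h1]
    simp
  · exact integrable_comp_eval (μ := fun _ : ι => gaussianReal 0 1)
      ((memLp_id_gaussianReal' 2 (by simp)).integrable_sq)

lemma integral_nv_le : ∫ x, nv x ∂gauss ι ≤ √(Fintype.card ι) := by
  obtain ⟨-, i1, i2, -⟩ := lip_var zero_le_one (nv_lip (ι := ι))
  refine Real.le_sqrt_of_sq_le ?_
  have h := P347.integral_sq_sub_mean i1 i2 0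
  simp only [sub_zero, integral_nv_sq] at h
  nlinarith [integral_nonneg (μ := gauss ι) (f := fun x => (nv x - ∫ y, nv y ∂gauss ι) ^ 2)
    fun x => sq_nonneg _]

lemma le_integral_nv : √(Fintype.card ι - 4 : ℝ) ≤ ∫ x, nv x ∂gauss ι := by
  obtain ⟨-, i1, i2, hv⟩ := lip_var zero_le_one (nv_lip (ι := ι))
  rw [Real.sqrt_le_left (integral_nonneg nv_nonneg)]
  have h := P347.integral_sq_sub_mean i1 i2 0
  simp only [sub_zero, integral_nv_sq] at h
  linarith

/-! ### Gordon's inequality -/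

variable {M N : ℕ} {A B : Type*} [Fintype A] [Fintype B] [Nonempty A] [Nonempty B]

/-- The coordinates of the comparison: the array and one extra variable, or two vectors. -/
abbrev CompIx (M N : ℕ) := ((Fin M × Fin N) ⊕ Unit) ⊕ (Fin N ⊕ Fin M)

/-- The two processes. -/
def compL (U : A × B → Fin N → ℝ) (V : A × B → Fin M → ℝ) (i : A × B) : CompIx M N → ℝ :=
  Sum.elim (Sum.elim (fun p => V i p.1 * U i p.2) fun _ => 1) (Sum.elim (U i) (V i))

omit [Fintype A] [Fintype B] [Nonempty A] [Nonempty B] in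
lemma covDiff_compL (U : A × B → Fin N → ℝ) (V : A × B → Fin M → ℝ) (i j : A × B) :
    covDiff Sum.isLeft (compL U V) i j =
      (1 - ∑ k, U i k * U j k) * (1 - ∑ a, V i a * V j a) := by
  simp only [covDiff, compL, Fintype.sum_sum_type, Sum.isLeft_inl, Sum.isLeft_inr, Sum.elim_inl,
    Sum.elim_inr, if_true, Bool.false_eq_true, if_false, one_mul, neg_mul, Finset.sum_neg_distrib,
    Finset.univ_unique, Finset.sum_singleton, Fintype.sum_prod_type]
  have : ∀ a k, V i a * U i k * (V j a * U j k) = V i a * V j a * (U i k * U j k) :=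
    fun a k => by ring
  simp only [this, ← Finset.mul_sum, ← Finset.sum_mul]
  ring

omit [Fintype A] [Fintype B] [Nonempty A] [Nonempty B] in
lemma covDiff_not (b : CompIx M N → Bool) (L : A × B → CompIx M N → ℝ) (i j : A × B) :
    covDiff (fun k => !b k) L i j = -covDiff b L i j := by
  simp only [covDiff, ← Finset.sum_neg_distrib]
  refine Finset.sum_congr rfl fun k _ => ?_
  by_cases h : b k <;> simp [h]

lemma one_sub_dot_nonneg {κ : Type*} [Fintype κ] {x y : κ → ℝ} (hx : ∑ i, x i ^ 2 = 1)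
    (hy : ∑ i, y i ^ 2 = 1) : 0 ≤ 1 - ∑ i, x i * y i := by
  have := dot_le_nv x y
  simp only [nv, hx, hy, Real.sqrt_one, one_mul] at this
  linarith

omit [Fintype A] [Fintype B] [Nonempty A] [Nonempty B] in
lemma fld_one (U : A × B → Fin N → ℝ) (V : A × B → Fin M → ℝ) (g : CompIx M N → ℝ) (i : A × B) :
    fld Sum.isLeft (compL U V) 1 g i =
      bil (fun a k => g (.inl (.inl (a, k)))) (V i) (U i) + g (.inl (.inr ())) := by
  simp only [fld, cu, compL, bil, Fintype.sum_sum_type, Sum.isLeft_inl, Sum.isLeft_inr,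
    Sum.elim_inl, Sum.elim_inr, if_true, Bool.false_eq_true, if_false, sub_self, Real.sqrt_zero,
    Real.sqrt_one, zero_mul, one_mul, Finset.sum_const_zero, add_zero, Finset.univ_unique,
    Finset.sum_singleton, Fintype.sum_prod_type]
  congr 1
  exact Finset.sum_congr rfl fun a _ => Finset.sum_congr rfl fun k _ => by ring

omit [Fintype A] [Fintype B] [Nonempty A] [Nonempty B] in
lemma fld_zero (U : A × B → Fin N → ℝ) (V : A × B → Fin M → ℝ) (g : CompIx M N → ℝ) (i : A × B) :
    fld Sum.isLeft (compL U V) 0 g i =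
      ∑ k, U i k * g (.inr (.inl k)) + ∑ a, V i a * g (.inr (.inr a)) := by
  simp [fld, cu, compL, Fintype.sum_sum_type]

omit [Fintype A] [Fintype B] [Nonempty A] [Nonempty B] in
lemma fld_not (b : CompIx M N → Bool) (L : A × B → CompIx M N → ℝ) (g : CompIx M N → ℝ) :
    fld (fun k => !b k) L 1 g = fld b L 0 g ∧ fld (fun k => !b k) L 0 g = fld b L 1 g := by
  constructor <;> funext i <;> refine Finset.sum_congr rfl fun k _ => ?_ <;>
    by_cases h : b k <;> simp [cu, h]

lemma left_preserving {α β : Type*} [Fintype α] [Fintype β] : MeasurePreserving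
    (fun (g : α ⊕ β → ℝ) a => g (.inl a)) (gauss (α ⊕ β)) (gauss α) :=
  (measurePreserving_fst (μ := gauss α) (ν := gauss β)).comp
    (measurePreserving_sumPiEquivProdPi fun _ : α ⊕ β => gaussianReal 0 1)

lemma right_preserving {α β : Type*} [Fintype α] [Fintype β] : MeasurePreserving
    (fun (g : α ⊕ β → ℝ) b => g (.inr b)) (gauss (α ⊕ β)) (gauss β) :=
  (measurePreserving_snd (μ := gauss α) (ν := gauss β)).comp
    (measurePreserving_sumPiEquivProdPi fun _ : α ⊕ β => gaussianReal 0 1)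

lemma preserving_G : MeasurePreserving
    (fun (g : CompIx M N → ℝ) a k => g (.inl (.inl (a, k)))) (gauss (CompIx M N)) (patterns M N) :=
  (mat_preserving M N).comp (left_preserving.comp left_preserving)

lemma preserving_one : MeasurePreserving
    (fun (g : CompIx M N → ℝ) => g (.inl (.inr ()))) (gauss (CompIx M N)) (gaussianReal 0 1) :=
  measurePreserving_eval (fun _ : CompIx M N => gaussianReal 0 1) _

lemma preserving_g : MeasurePreserving
    (fun (g : CompIx M N → ℝ) k => g (.inr (.inl k))) (gauss (CompIx M N)) (gauss (Fin N)) :=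
  left_preserving.comp right_preserving

lemma preserving_h : MeasurePreserving
    (fun (g : CompIx M N → ℝ) a => g (.inr (.inr a))) (gauss (CompIx M N)) (gauss (Fin M)) :=
  right_preserving.comp right_preserving

lemma soft_integrable {b : ℝ} (hb : 0 < b) (bk : CompIx M N → Bool)
    (L : A × B → CompIx M N → ℝ) {u : ℝ} (hu : u ∈ Icc (0 : ℝ) 1) :
    Integrable (fun g => softMM b (fld bk L u g)) (gauss (CompIx M N)) :=
  Wishart.integrable_cont_polyBd (continuous_softMM.comp (Wishart.continuous_fld bk L u))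
    (Wishart.polyBd_comp_fld bk L (polyBd_softMM hb) hu)

lemma comp_integrals {φ : (Fin M → Fin N → ℝ) → ℝ} {ψ₁ : (Fin M → ℝ) → ℝ} {ψ₂ : (Fin N → ℝ) → ℝ}
    (iφ : Integrable φ (patterns M N)) (i₁ : Integrable ψ₁ (gauss (Fin M)))
    (i₂ : Integrable ψ₂ (gauss (Fin N))) :
    (Integrable (fun g : CompIx M N → ℝ => φ (fun a k => g (.inl (.inl (a, k)))) + g (.inl (.inr ())))
        (gauss (CompIx M N)) ∧
      ∫ g, (φ (fun a k => g (.inl (.inl (a, k)))) + g (.inl (.inr ()))) ∂gauss (CompIx M N) =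
        ∫ G, φ G ∂patterns M N) ∧
    (Integrable (fun g : CompIx M N → ℝ => ψ₁ (fun a => g (.inr (.inr a)))) (gauss (CompIx M N)) ∧
      ∫ g, ψ₁ (fun a => g (.inr (.inr a))) ∂gauss (CompIx M N) = ∫ h, ψ₁ h ∂gauss (Fin M)) ∧
    (Integrable (fun g : CompIx M N → ℝ => ψ₂ (fun k => g (.inr (.inl k)))) (gauss (CompIx M N)) ∧
      ∫ g, ψ₂ (fun k => g (.inr (.inl k))) ∂gauss (CompIx M N) = ∫ x, ψ₂ x ∂gauss (Fin N)) := by
  have key : ∀ {X : Type} [MeasurableSpace X] {ν : Measure X} {T : (CompIx M N → ℝ) → X}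
      {f : X → ℝ}, MeasurePreserving T (gauss (CompIx M N)) ν → Integrable f ν →
      Integrable (fun g => f (T g)) (gauss (CompIx M N)) ∧
        ∫ g, f (T g) ∂gauss (CompIx M N) = ∫ x, f x ∂ν := fun hT hf =>
    ⟨hT.integrable_comp_of_integrable hf, by
      rw [← hT.map_eq, integral_map hT.measurable.aemeasurable (by rw [hT.map_eq]; exact hf.1)]⟩
  obtain ⟨j, e⟩ := key preserving_G iφ
  obtain ⟨j', e'⟩ := key preserving_one (f := fun x : ℝ => x)
    ((memLp_id_gaussianReal' 1 (by simp)).integrable le_rfl)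
  refine ⟨⟨j.add j', ?_⟩, key preserving_h i₁, key preserving_g i₂⟩
  rw [integral_add j j', e, e']
  simp

/-- Gordon's lower bound for the min-max. -/
theorem gordon_min (U : A → Fin N → ℝ) (hU : ∀ a, ∑ k, U a k ^ 2 = 1) (V : B → Fin M → ℝ)
    (hV : ∀ β, ∑ a, V β a ^ 2 = 1) {φ : (Fin M → Fin N → ℝ) → ℝ} {ψ₁ : (Fin M → ℝ) → ℝ}
    {ψ₂ : (Fin N → ℝ) → ℝ} (iφ : Integrable φ (patterns M N))
    (i₁ : Integrable ψ₁ (gauss (Fin M))) (i₂ : Integrable ψ₂ (gauss (Fin N)))
    (hφ : ∀ G, ∃ a, ∀ β, bil G (V β) (U a) ≤ φ G) (h₁ : ∀ h, ∃ β, ψ₁ h ≤ ∑ a, V β a * h a)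
    (h₂ : ∀ x a, -ψ₂ x ≤ ∑ k, U a k * x k) :
    ∫ h, ψ₁ h ∂gauss (Fin M) - ∫ x, ψ₂ x ∂gauss (Fin N) ≤ ∫ G, φ G ∂patterns M N := by
  set L := compL (fun i : A × B => U i.1) (fun i : A × B => V i.2) with hL
  obtain ⟨⟨jφ, eφ⟩, ⟨j₁, e₁⟩, ⟨j₂, e₂⟩⟩ := comp_integrals iφ i₁ i₂
  refine le_of_forall_pos_le_add fun δ hδ => ?_
  set K := Real.log (Fintype.card A) + Real.log (Fintype.card B)
  have hK : 0 ≤ K := add_nonneg (Real.log_natCast_nonneg _) (Real.log_natCast_nonneg _)
  set b := (K + 1) / δ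
  have hb : 0 < b := div_pos (by linarith) hδ
  have hc : ∀ i j, covDiff Sum.isLeft L i j =
      (1 - ∑ k, U i.1 k * U j.1 k) * (1 - ∑ a, V i.2 a * V j.2 a) := covDiff_compL _ _
  have h := heat_softMM_le hb Sum.isLeft L
    (fun i j _ => (hc i j).symm ▸ mul_nonneg (one_sub_dot_nonneg (hU _) (hU _))
      (one_sub_dot_nonneg (hV _) (hV _)))
    (fun i j e => by rw [hc, e]; simp [← pow_two, hU])
    (fun i => by rw [hc]; simp [← pow_two, hU])
  have hlo : ∀ g : CompIx M N → ℝ, ψ₁ (fun a => g (.inr (.inr a))) -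
      ψ₂ (fun k => g (.inr (.inl k))) - Real.log (Fintype.card A) / b ≤
      softMM b (fld Sum.isLeft L 0 g) := fun g => le_softMM hb fun a => by
    obtain ⟨β, hβ⟩ := h₁ fun a => g (.inr (.inr a))
    refine ⟨β, ?_⟩
    rw [hL, fld_zero]
    linarith [h₂ (fun k => g (.inr (.inl k))) a]
  have hup : ∀ g : CompIx M N → ℝ, softMM b (fld Sum.isLeft L 1 g) ≤
      φ (fun a k => g (.inl (.inl (a, k)))) + g (.inl (.inr ())) +
        Real.log (Fintype.card B) / b := fun g => by
    obtain ⟨a, ha⟩ := hφ fun a k => g (.inl (.inl (a, k)))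
    refine softMM_le hb (a := a) fun β => ?_
    rw [hL, fld_one]
    linarith [ha β]
  have l := integral_mono ((j₁.sub j₂).sub (integrable_const _))
    (soft_integrable hb Sum.isLeft L (left_mem_Icc.2 zero_le_one)) hlo
  have r := integral_mono (soft_integrable hb Sum.isLeft L (right_mem_Icc.2 zero_le_one))
    (jφ.add (integrable_const _)) hup
  simp only [Pi.sub_apply, Pi.add_apply] at l r
  rw [integral_sub ?_ (integrable_const _), integral_sub j₁ j₂, e₁, e₂] at l
  swap; · exact j₁.sub j₂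
  rw [integral_add jφ (integrable_const _), eφ] at r
  simp only [heat] at h
  simp only [integral_const, probReal_univ, smul_eq_mul, one_mul] at l r
  have : K / b ≤ δ := by
    rw [div_le_iff₀ hb, mul_div_cancel₀ _ hδ.ne']; linarith
  simp only [K, add_div] at this
  linarith

/-- The upper bound for the maximum. -/
theorem gordon_max {P : Type*} [Fintype P] [Nonempty P] (U : P → Fin N → ℝ)
    (hU : ∀ p, ∑ k, U p k ^ 2 = 1) (V : P → Fin M → ℝ) (hV : ∀ p, ∑ a, V p a ^ 2 = 1)
    {φ : (Fin M → Fin N → ℝ) → ℝ} {ψ₁ : (Fin M → ℝ) → ℝ} {ψ₂ : (Fin N → ℝ) → ℝ}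
    (iφ : Integrable φ (patterns M N)) (i₁ : Integrable ψ₁ (gauss (Fin M)))
    (i₂ : Integrable ψ₂ (gauss (Fin N))) (hφ : ∀ G, ∃ p, φ G ≤ bil G (V p) (U p))
    (h₁ : ∀ h p, ∑ a, V p a * h a ≤ ψ₁ h) (h₂ : ∀ x p, ∑ k, U p k * x k ≤ ψ₂ x) :
    ∫ G, φ G ∂patterns M N ≤ ∫ h, ψ₁ h ∂gauss (Fin M) + ∫ x, ψ₂ x ∂gauss (Fin N) := by
  set L := compL (fun i : Unit × P => U i.2) (fun i : Unit × P => V i.2) with hL
  obtain ⟨⟨jφ, eφ⟩, ⟨j₁, e₁⟩, ⟨j₂, e₂⟩⟩ := comp_integrals iφ i₁ i₂
  refine le_of_forall_pos_le_add fun δ hδ => ?_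
  set K := Real.log (Fintype.card P)
  have hK : 0 ≤ K := Real.log_natCast_nonneg _
  set b := (K + 1) / δ
  have hb : 0 < b := div_pos (by linarith) hδ
  set bk : CompIx M N → Bool := fun k => !Sum.isLeft k with hbk
  have hc : ∀ i j, covDiff bk L i j =
      -((1 - ∑ k, U i.2 k * U j.2 k) * (1 - ∑ a, V i.2 a * V j.2 a)) := fun i j => by
    rw [hbk, covDiff_not, hL, covDiff_compL]
  have h := heat_softMM_le hb bk L (fun i j e => absurd (Subsingleton.elim i.1 j.1) e)
    (fun i j _ => by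
      rw [hc]
      exact neg_nonpos.2 (mul_nonneg (one_sub_dot_nonneg (hU _) (hU _))
        (one_sub_dot_nonneg (hV _) (hV _))))
    (fun i => by rw [hc]; simp [← pow_two, hU])
  have hlo : ∀ g : CompIx M N → ℝ, φ (fun a k => g (.inl (.inl (a, k)))) + g (.inl (.inr ())) -
      Real.log (Fintype.card Unit) / b ≤ softMM b (fld bk L 0 g) := fun g => le_softMM hb fun a => by
    obtain ⟨p, hp⟩ := hφ fun a k => g (.inl (.inl (a, k)))
    refine ⟨p, ?_⟩
    rw [hbk, (fld_not _ _ _).2, hL, fld_one]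
    linarith
  have hup : ∀ g : CompIx M N → ℝ, softMM b (fld bk L 1 g) ≤
      ψ₁ (fun a => g (.inr (.inr a))) + ψ₂ (fun k => g (.inr (.inl k))) + K / b := fun g => by
    refine softMM_le hb (a := ()) fun p => ?_
    rw [hbk, (fld_not _ _ _).1, hL, fld_zero]
    linarith [h₁ (fun a => g (.inr (.inr a))) p, h₂ (fun k => g (.inr (.inl k))) p]
  have l := integral_mono (jφ.sub (integrable_const _))
    (soft_integrable hb bk L (left_mem_Icc.2 zero_le_one)) hlo
  have r := integral_mono (soft_integrable hb bk L (right_mem_Icc.2 zero_le_one))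
    ((j₁.add j₂).add (integrable_const _)) hup
  simp only [Pi.sub_apply, Pi.add_apply] at l r
  rw [integral_sub jφ (integrable_const _), eφ] at l
  rw [integral_add ?_ (integrable_const _), integral_add j₁ j₂, e₁, e₂] at r
  swap; · exact j₁.add j₂
  simp only [heat] at h
  simp only [Fintype.card_unit, Nat.cast_one, Real.log_one, zero_div, integral_const,
    probReal_univ, smul_eq_mul, one_mul, mul_zero] at l r
  have : K / b ≤ δ := by
    rw [div_le_iff₀ hb, mul_div_cancel₀ _ hδ.ne']; linarith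
  linarith

end Vale.Agent.P166.NW.Spec
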