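import Vale.Agent.P166.NW.Spec.Base
import Vale.Agent.P166.NW.Spec.Bilinear

/-!
The edges of the spectrum of `N⁻¹ Gᵀ G` and of the Marchenko–Pastur law.
-/

noncomputable section

open MeasureTheory ProbabilityTheory Set Filter Matrix
open scoped BigOperators Topology

namespace Vale.Agent.P166.NW.Spec

open Vale.Agent.P146 (gauss)
open Vale.Agent.P157 (patterns)

variable {M N : ℕ}

/-- The action of an array on a vector. -/
def mulV (G : Fin M → Fin N → ℝ) (u : Fin N → ℝ) (a : Fin M) : ℝ := ∑ i, G a i * u i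

/-- The Frobenius norm. -/
def frob (G : Fin M → Fin N → ℝ) : ℝ := nv fun p : Fin M × Fin N => G p.1 p.2

lemma bil_eq (G : Fin M → Fin N → ℝ) (v : Fin M → ℝ) (u : Fin N → ℝ) :
    bil G v u = ∑ a, v a * mulV G u a := by
  simp only [bil, mulV, Finset.mul_sum]
  exact Finset.sum_congr rfl fun a _ => Finset.sum_congr rfl fun i _ => by ring

lemma mulV_sub (G G' : Fin M → Fin N → ℝ) (u : Fin N → ℝ) :
    mulV G u - mulV G' u = mulV (G - G') u := by
  funext a; simp [mulV, sub_mul]

lemma mulV_sub_right (G : Fin M → Fin N → ℝ) (u u' : Fin N → ℝ) :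
    mulV G u - mulV G u' = mulV G (u - u') := by
  funext a; simp [mulV, mul_sub]

lemma nv_mulV_le (G : Fin M → Fin N → ℝ) (u : Fin N → ℝ) : nv (mulV G u) ≤ frob G * nv u := by
  rw [frob, nv, nv, nv, ← Real.sqrt_mul (Finset.sum_nonneg fun _ _ => sq_nonneg _)]
  refine Real.sqrt_le_sqrt ?_
  rw [Fintype.sum_prod_type, Finset.sum_mul]
  exact Finset.sum_le_sum fun a _ => Finset.sum_mul_sq_le_sq_mul_sq _ _ _

lemma nv_add_le {ι : Type*} [Fintype ι] (x y : ι → ℝ) : nv (x + y) ≤ nv x + nv y := by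
  simp only [nv_eq_norm, WithLp.toLp_add]; exact norm_add_le _ _

lemma nv_smul {ι : Type*} [Fintype ι] (c : ℝ) (x : ι → ℝ) : nv (c • x) = |c| * nv x := by
  simp [nv_eq_norm, norm_smul, WithLp.toLp_smul]

/-- A finite net of the unit sphere. -/
lemma exists_net (n : ℕ) [NeZero n] {ε : ℝ} (hε : 0 < ε) : ∃ (k : ℕ) (U : Fin (k + 1) → Fin n → ℝ),
    (∀ a, ∑ i, U a i ^ 2 = 1) ∧
      ∀ u : Fin n → ℝ, nv u = 1 → ∃ a, nv (u - U a) ≤ ε := by
  classical
  obtain ⟨t, hts, htf, htc⟩ :=
    (isCompact_sphere (0 : EuclideanSpace ℝ (Fin n)) 1).finite_cover_balls hε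
  have hne : t.Nonempty := by
    obtain ⟨x, hx⟩ := (NormedSpace.sphere_nonempty (E := EuclideanSpace ℝ (Fin n)) (x := 0)).2
      zero_le_one
    obtain ⟨y, hy, -⟩ := Set.mem_iUnion₂.1 (htc hx)
    exact ⟨y, hy⟩
  obtain ⟨k, hk⟩ := Nat.exists_eq_succ_of_ne_zero
    (Finset.card_pos.2 (htf.toFinset_nonempty.2 hne)).ne'
  refine ⟨k, fun a i => ((htf.toFinset.equivFinOfCardEq hk).symm a).1 i, fun a => ?_, fun u hu => ?_⟩
  · have := hts (htf.mem_toFinset.1 ((htf.toFinset.equivFinOfCardEq hk).symm a).2)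
    rw [mem_sphere_zero_iff_norm] at this
    rw [← EuclideanSpace.real_norm_sq_eq, this, one_pow]
  · have : WithLp.toLp 2 u ∈ Metric.sphere (0 : EuclideanSpace ℝ (Fin n)) 1 := by
      simpa [nv_eq_norm] using hu
    obtain ⟨y, hy, hd⟩ := Set.mem_iUnion₂.1 (htc this)
    refine ⟨htf.toFinset.equivFinOfCardEq hk ⟨y, htf.mem_toFinset.2 hy⟩, ?_⟩
    rw [Metric.mem_ball, dist_eq_norm] at hd
    simpa [nv_eq_norm] using hd.le

lemma exists_dir [NeZero M] (x : Fin M → ℝ) :
    ∃ e : Fin M → ℝ, nv e = 1 ∧ ∑ a, e a * x a = nv x := by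
  by_cases hx : nv x = 0
  · refine ⟨Pi.single 0 1, by simp [nv, Pi.single_apply], ?_⟩
    have h := nv_sq x
    rw [hx, eq_comm, zero_pow two_ne_zero] at h
    have h0 : ∀ a, x a = 0 := fun a => by
      simpa using (Finset.sum_eq_zero_iff_of_nonneg fun a _ => sq_nonneg _).1 h a (Finset.mem_univ a)
    simp [hx, h0]
  · refine ⟨(nv x)⁻¹ • x, ?_, ?_⟩
    · rw [nv_smul, abs_inv, abs_of_nonneg (nv_nonneg x), inv_mul_cancel₀ hx]
    · simp only [Pi.smul_apply, smul_eq_mul, mul_assoc, ← Finset.mul_sum, ← pow_two, ← nv_sq]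
      field_simp

/-- Transfer to patterns. -/
lemma lip_patterns {f : (Fin M → Fin N → ℝ) → ℝ} {A : ℝ} (hA : 0 ≤ A)
    (hf : ∀ G G', f G ≤ f G' + A * frob (G - G')) :
    Integrable f (patterns M N) ∧
      ∀ t, 0 < t → (patterns M N).real {G | t ≤ |f G - ∫ H, f H ∂patterns M N|} ≤ 4 * A ^ 2 / t ^ 2 := by
  have hsym : ∀ G G' : Fin M → Fin N → ℝ, frob (G - G') = frob (G' - G) := fun G G' =>
    congrArg Real.sqrt (Finset.sum_congr rfl fun p _ => by simp only [Pi.sub_apply]; ring)
  obtain ⟨hc, i1, i2, hv⟩ := lip_var (f := fun g => f (mat g)) hA fun g g' => by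
    have h1 := hf (mat g) (mat g'); have h2 := hf (mat g') (mat g)
    rw [hsym (mat g') (mat g)] at h2
    have : frob (mat g - mat g') = nv (g - g') := rfl
    rw [abs_le]; constructor <;> rw [← this] <;> linarith
  have hcu : Continuous f := by
    have := hc.comp (f := fun (G : Fin M → Fin N → ℝ) p => G p.1 p.2)
      (continuous_pi fun p => (continuous_apply p.2).comp (continuous_apply p.1))
    exact this
  have hmp := mat_preserving M N
  have e : ∀ φ : (Fin M → Fin N → ℝ) → ℝ, Continuous φ →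
      ∫ G, φ G ∂patterns M N = ∫ g, φ (mat g) ∂gauss (Fin M × Fin N) := fun φ hφ => by
    rw [← hmp.map_eq, integral_map hmp.measurable.aemeasurable hφ.aestronglyMeasurable]
  have hI : Integrable f (patterns M N) := (hmp.integrable_comp hcu.aestronglyMeasurable).1 i1
  have hI2 : Integrable (fun G => f G ^ 2) (patterns M N) :=
    (hmp.integrable_comp (g := fun G => f G ^ 2) (hcu.pow 2).aestronglyMeasurable).1 i2
  refine ⟨hI, fun t ht => ?_⟩
  set m := ∫ H, f H ∂patterns M N with hm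
  have hv' : ∫ G, (f G - m) ^ 2 ∂patterns M N ≤ 4 * A ^ 2 := by
    rw [e (fun G => (f G - m) ^ 2) ((hcu.sub continuous_const).pow 2), hm, e f hcu]
    exact hv
  have hint : Integrable (fun G => (f G - m) ^ 2) (patterns M N) :=
    ((hI2.sub (hI.const_mul (2 * m))).add (integrable_const (m ^ 2))).congr
      (ae_of_all _ fun G => by simp only [Pi.add_apply, Pi.sub_apply]; ring)
  have h := mul_meas_ge_le_integral_of_nonneg (ae_of_all _ fun G => sq_nonneg (f G - m)) hint (t ^ 2)
  have hs : {G | t ≤ |f G - m|} = {G | t ^ 2 ≤ (f G - m) ^ 2} := by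
    ext G
    show t ≤ |f G - m| ↔ t ^ 2 ≤ (f G - m) ^ 2
    rw [← sq_abs (f G - m), pow_le_pow_iff_left₀ ht.le (abs_nonneg _) two_ne_zero]
  rw [hs, le_div_iff₀ (pow_pos ht 2)]
  linarith [mul_comm (t ^ 2) ((patterns M N).real {G | t ^ 2 ≤ (f G - m) ^ 2})]

lemma frob_nonneg (G : Fin M → Fin N → ℝ) : 0 ≤ frob G := nv_nonneg _

lemma frob_lip (G G' : Fin M → Fin N → ℝ) : |frob G - frob G'| ≤ frob (G - G') :=
  nv_sub_le _ _

lemma integral_frob_le : Integrable (frob (M := M) (N := N)) (patterns M N) ∧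
    ∫ G, frob G ∂patterns M N ≤ √(M * N) := by
  obtain ⟨hi, -⟩ := lip_patterns (f := frob (M := M) (N := N)) zero_le_one fun G G' => by
    linarith [(abs_le.1 (frob_lip G G')).2]
  refine ⟨hi, ?_⟩
  have hmp := mat_preserving M N
  rw [← hmp.map_eq, integral_map hmp.measurable.aemeasurable (by rw [hmp.map_eq]; exact hi.1)]
  refine (le_of_eq rfl).trans ((integral_nv_le (ι := Fin M × Fin N)).trans_eq ?_)
  simp

lemma mesh_le (M N : ℕ) (hN : 1 ≤ N) :
    0 < 1 / (√(M * N) + 1) ∧ 1 / (√(M * N) + 1) ≤ 1 ∧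
      1 / (√(M * N) + 1) * √(M * N) ≤ 1 ∧ 1 / (√(M * N) + 1) * √M ≤ 1 := by
  have h0 := Real.sqrt_nonneg ((M : ℝ) * N)
  have h1 : √(M : ℝ) ≤ √(M * N) :=
    Real.sqrt_le_sqrt (le_mul_of_one_le_right M.cast_nonneg (by exact_mod_cast hN))
  refine ⟨by positivity, div_le_one_of_le₀ (by linarith) (by linarith), ?_, ?_⟩ <;>
    rw [div_mul_eq_mul_div, one_mul, div_le_one (by linarith)] <;> linarith

/-- A concentrated lower bound of `|G u|` on the sphere. -/
theorem lower_singular [NeZero M] [NeZero N] : ∃ ψ : (Fin M → Fin N → ℝ) → ℝ,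
    (∀ G u, nv u = 1 → ψ G ≤ nv (mulV G u)) ∧
    √((M : ℝ) - 4) - √N - 2 ≤ ∫ G, ψ G ∂patterns M N ∧
    ∀ t, 0 < t → (patterns M N).real {G | t ≤ |ψ G - ∫ H, ψ H ∂patterns M N|} ≤ 16 / t ^ 2 := by
  obtain ⟨hε, hε1, he1, he2⟩ := mesh_le M N (Nat.one_le_iff_ne_zero.2 (NeZero.ne N))
  set ε := 1 / (√((M : ℝ) * N) + 1)
  obtain ⟨k, U, hU, hUn⟩ := exists_net N hε
  obtain ⟨l, V, hV, hVn⟩ := exists_net M hε
  set φ : (Fin M → Fin N → ℝ) → ℝ := fun G =>
    Finset.univ.inf' Finset.univ_nonempty fun a => nv (mulV G (U a))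
  have hU1 : ∀ a, nv (U a) = 1 := fun a => by simp [nv, hU a]
  have hφL : ∀ G G', φ G ≤ φ G' + 1 * frob (G - G') := fun G G' => by
    obtain ⟨a, -, ha⟩ := Finset.exists_mem_eq_inf' Finset.univ_nonempty fun a => nv (mulV G' (U a))
    have h1 := (abs_le.1 (nv_sub_le (mulV G (U a)) (mulV G' (U a)))).2
    have h2 := nv_mulV_le (G - G') (U a)
    rw [hU1, mul_one, ← mulV_sub] at h2
    have h3 : φ G ≤ nv (mulV G (U a)) := Finset.inf'_le _ (Finset.mem_univ a)
    have h4 : φ G' = nv (mulV G' (U a)) := ha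
    linarith
  obtain ⟨iφ, -⟩ := lip_patterns zero_le_one hφL
  obtain ⟨iF, hF⟩ := integral_frob_le (M := M) (N := N)
  refine ⟨fun G => φ G - ε * frob G, fun G u hu => ?_, ?_, ?_⟩
  · obtain ⟨a, ha⟩ := hUn u hu
    have h1 := (abs_le.1 (nv_sub_le (mulV G (U a)) (mulV G u))).2
    rw [mulV_sub_right] at h1
    have h2 := nv_mulV_le G (U a - u)
    have h3 : nv (U a - u) = nv (u - U a) := by
      rw [← neg_sub, nv_eq_norm, nv_eq_norm, WithLp.toLp_neg, norm_neg]
    have h4 : φ G ≤ nv (mulV G (U a)) := Finset.inf'_le _ (Finset.mem_univ a)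
    have : frob G * nv (U a - u) ≤ frob G * ε :=
      mul_le_mul_of_nonneg_left (h3 ▸ ha) (nv_nonneg _)
    dsimp only
    linarith [mul_comm ε (frob G)]
  · rw [integral_sub iφ (iF.const_mul ε), integral_const_mul]
    obtain ⟨-, i1, -, -⟩ := lip_var zero_le_one (nv_lip (ι := Fin M))
    obtain ⟨-, i2, -, -⟩ := lip_var zero_le_one (nv_lip (ι := Fin N))
    have h := gordon_min U hU V hV iφ (i1.const_mul (1 - ε)) i2
      (fun G => by
        obtain ⟨a, -, ha⟩ :=
          Finset.exists_mem_eq_inf' Finset.univ_nonempty fun a => nv (mulV G (U a))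
        refine ⟨a, fun β => ?_⟩
        have := dot_le_nv (V β) (mulV G (U a))
        have hb : nv (V β) = 1 := by simp [nv, hV β]
        rw [hb, one_mul] at this
        rw [bil_eq]; exact this.trans_eq ha.symm)
      (fun x => by
        obtain ⟨e, he, hex⟩ := exists_dir x
        obtain ⟨β, hβ⟩ := hVn e he
        refine ⟨β, ?_⟩
        have h1 := dot_le_nv (e - V β) x
        simp only [Pi.sub_apply, sub_mul, Finset.sum_sub_distrib, hex] at h1
        have : nv (e - V β) * nv x ≤ ε * nv x := mul_le_mul_of_nonneg_right hβ (nv_nonneg x)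
        linarith)
      (fun x a => by
        have := dot_le_nv (-U a) x
        simp only [Pi.neg_apply, neg_mul, Finset.sum_neg_distrib] at this
        have hb : nv (-U a) = 1 := by simp [nv, hU a]
        rw [hb, one_mul] at this
        linarith)
    rw [integral_const_mul] at h
    have a1 := le_integral_nv (ι := Fin M)
    have a2 := integral_nv_le (ι := Fin M)
    have a3 := integral_nv_le (ι := Fin N)
    simp only [Fintype.card_fin] at a1 a2 a3
    have := mul_le_mul_of_nonneg_left a2 hε.le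
    have := mul_le_mul_of_nonneg_left hF hε.le
    linarith
  · obtain ⟨-, h⟩ := lip_patterns (f := fun G => φ G - ε * frob G) zero_le_two fun G G' => by
      have h1 := hφL G G'
      have h2 := mul_le_mul_of_nonneg_left (abs_le.1 (frob_lip G G')).1 hε.le
      have := mul_le_mul_of_nonneg_right hε1 (frob_nonneg (G - G'))
      linarith
    exact fun t ht => (h t ht).trans (by norm_num)

/-- A concentrated upper bound of `|G u|` on the sphere. -/
theorem upper_singular [NeZero M] [NeZero N] : ∃ ψ : (Fin M → Fin N → ℝ) → ℝ,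
    (∀ G u, nv u = 1 → nv (mulV G u) ≤ ψ G) ∧
    ∫ G, ψ G ∂patterns M N ≤ √M + √N + 2 ∧
    ∀ t, 0 < t → (patterns M N).real {G | t ≤ |ψ G - ∫ H, ψ H ∂patterns M N|} ≤ 36 / t ^ 2 := by
  obtain ⟨hε, hε1, he1, -⟩ := mesh_le M N (Nat.one_le_iff_ne_zero.2 (NeZero.ne N))
  set ε := 1 / (√((M : ℝ) * N) + 1)
  obtain ⟨k, U, hU, hUn⟩ := exists_net N hε
  obtain ⟨l, V, hV, hVn⟩ := exists_net M hε
  have hU1 : ∀ a, nv (U a) = 1 := fun a => by simp [nv, hU a]
  have hV1 : ∀ β, nv (V β) = 1 := fun β => by simp [nv, hV β]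
  set φ : (Fin M → Fin N → ℝ) → ℝ := fun G =>
    Finset.univ.sup' Finset.univ_nonempty fun p : Fin (k + 1) × Fin (l + 1) => bil G (V p.2) (U p.1)
  have hφL : ∀ G G', φ G ≤ φ G' + 1 * frob (G - G') := fun G G' => by
    refine Finset.sup'_le _ _ fun p _ => ?_
    have h1 : bil G' (V p.2) (U p.1) ≤ φ G' :=
      Finset.le_sup' (fun p : Fin (k + 1) × Fin (l + 1) => bil G' (V p.2) (U p.1)) (Finset.mem_univ p)
    have h2 := dot_le_nv (V p.2) (mulV (G - G') (U p.1))
    have h3 := nv_mulV_le (G - G') (U p.1)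
    rw [← bil_eq, hV1, one_mul] at h2
    rw [hU1, mul_one] at h3
    have : bil (G - G') (V p.2) (U p.1) = bil G (V p.2) (U p.1) - bil G' (V p.2) (U p.1) := by
      simp [bil, sub_mul, Finset.sum_sub_distrib]
    linarith
  obtain ⟨iφ, -⟩ := lip_patterns zero_le_one hφL
  obtain ⟨iF, hF⟩ := integral_frob_le (M := M) (N := N)
  refine ⟨fun G => φ G + 2 * ε * frob G, fun G u hu => ?_, ?_, ?_⟩
  · obtain ⟨a, ha⟩ := hUn u hu
    obtain ⟨e, he, hex⟩ := exists_dir (mulV G u)
    obtain ⟨β, hβ⟩ := hVn e he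
    have h1 := dot_le_nv (e - V β) (mulV G u)
    simp only [Pi.sub_apply, sub_mul, Finset.sum_sub_distrib, hex] at h1
    have h2 := dot_le_nv (V β) (mulV G (u - U a))
    rw [← mulV_sub_right, hV1, one_mul] at h2
    simp only [Pi.sub_apply, mul_sub, Finset.sum_sub_distrib] at h2
    rw [← bil_eq G (V β) (U a)] at h2
    have h3 := nv_mulV_le G u
    rw [hu, mul_one] at h3
    have h4 := nv_mulV_le G (u - U a)
    rw [← mulV_sub_right] at h4
    have h5 : bil G (V β) (U a) ≤ φ G :=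
      Finset.le_sup' (fun p : Fin (k + 1) × Fin (l + 1) => bil G (V p.2) (U p.1))
        (Finset.mem_univ (a, β))
    have : nv (e - V β) * nv (mulV G u) ≤ ε * frob G :=
      mul_le_mul hβ h3 (nv_nonneg _) hε.le
    have : frob G * nv (u - U a) ≤ frob G * ε := mul_le_mul_of_nonneg_left ha (nv_nonneg _)
    dsimp only
    linarith [mul_comm ε (frob G)]
  · rw [integral_add iφ (iF.const_mul _), integral_const_mul]
    obtain ⟨-, i1, -, -⟩ := lip_var zero_le_one (nv_lip (ι := Fin M))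
    obtain ⟨-, i2, -, -⟩ := lip_var zero_le_one (nv_lip (ι := Fin N))
    have h := gordon_max (fun p : Fin (k + 1) × Fin (l + 1) => U p.1) (fun p => hU _)
      (fun p => V p.2) (fun p => hV _) iφ i1 i2
      (fun G => (Finset.exists_mem_eq_sup' Finset.univ_nonempty _).imp fun p hp => hp.2.le)
      (fun x p => (dot_le_nv _ _).trans_eq (by rw [hV1, one_mul]))
      (fun x p => (dot_le_nv _ _).trans_eq (by rw [hU1, one_mul]))
    have a2 := integral_nv_le (ι := Fin M)
    have a3 := integral_nv_le (ι := Fin N)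
    simp only [Fintype.card_fin] at a2 a3
    have := mul_le_mul_of_nonneg_left hF hε.le
    linarith
  · obtain ⟨-, h⟩ := lip_patterns (f := fun G => φ G + 2 * ε * frob G)
      (show (0 : ℝ) ≤ 3 by norm_num) fun G G' => by
      have h1 := hφL G G'
      have h2 := mul_le_mul_of_nonneg_left (abs_le.1 (frob_lip G G')).2 hε.le
      have := mul_le_mul_of_nonneg_right hε1 (frob_nonneg (G - G'))
      linarith
    exact fun t ht => (h t ht).trans (by norm_num)

/-- An eigenvalue as the square of a singular value. -/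
lemma specVals_eq (G : Fin M → Fin N → ℝ) (i : Fin N) :
    ∃ u, nv u = 1 ∧ (N : ℝ) * specVals G i = nv (mulV G u) ^ 2 := by
  set hA := (gram_posSemidef G).isHermitian
  set u : Fin N → ℝ := ⇑(hA.eigenvectorBasis i) with hu
  have h1 : nv u = 1 := by
    rw [nv_eq_norm]; simp [hu]
  refine ⟨u, h1, ?_⟩
  have h2 : u ⬝ᵥ gram G *ᵥ u = specVals G i := by
    rw [hu, hA.mulVec_eigenvectorBasis, dotProduct_smul, smul_eq_mul]
    have : u ⬝ᵥ u = 1 := by
      rw [← one_pow 2, ← h1, nv_sq]; simp [dotProduct, pow_two]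
    rw [← hu, this, mul_one]; rfl
  have hN : (N : ℝ) ≠ 0 := by exact_mod_cast (Nat.pos_iff_ne_zero.1 i.pos)
  rw [← h2, gram, smul_mulVec, dotProduct_smul, smul_eq_mul, mul_inv_cancel_left₀ hN,
    ← mulVec_mulVec, dotProduct_mulVec, vecMul_transpose, nv_sq]
  simp [dotProduct, mulV, mulVec, pow_two]

lemma tendsto_floor_ratio {α : ℝ} (hα : 0 ≤ α) :
    Tendsto (fun N : ℕ => (⌊α * N⌋₊ : ℝ) / N) atTop (𝓝 α) := by
  have := (tendsto_nat_floor_mul_div_atTop (R := ℝ) hα).comp tendsto_natCast_atTop_atTop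
  exact this

/-- The largest eigenvalue is bounded in probability. -/
theorem norm_bound : NormStmt := by
  intro α hα
  refine ⟨(√α + 2) ^ 2, ?_⟩
  have ht : Tendsto (fun N : ℕ => √(N : ℝ) - 2) atTop atTop :=
    tendsto_atTop_add_const_right _ _ (Real.tendsto_sqrt_atTop.comp tendsto_natCast_atTop_atTop)
  refine squeeze_zero' (Eventually.of_forall fun N => measureReal_nonneg)
    (g := fun N : ℕ => 36 / (√(N : ℝ) - 2) ^ 2) ?_
    (tendsto_const_nhds.div_atTop ((tendsto_pow_atTop two_ne_zero).comp ht))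
  filter_upwards [ht.eventually_gt_atTop 0, eventually_ge_atTop 1,
    (tendsto_natCast_atTop_atTop (R := ℝ)).eventually_ge_atTop α⁻¹] with N h2 hN hNα
  have : NeZero N := ⟨by omega⟩
  have hM : 1 ≤ α * N := by rw [inv_le_iff_one_le_mul₀' hα] at hNα; exact hNα
  have : NeZero ⌊α * N⌋₊ := ⟨(Nat.floor_pos.2 hM).ne'⟩
  obtain ⟨ψ, hψ, hm, hc⟩ := upper_singular (M := ⌊α * N⌋₊) (N := N)
  refine (measureReal_mono ?_).trans (hc _ h2)
  rintro G ⟨i, hi⟩
  obtain ⟨u, hu, he⟩ := specVals_eq G i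
  have hs := Real.mul_self_sqrt (show (0 : ℝ) ≤ (N : ℝ) by positivity)
  have h3 : (√α + 2) * √N ≤ nv (mulV G u) := by
    refine (pow_le_pow_iff_left₀ (by positivity) (nv_nonneg _) two_ne_zero).1 ?_
    rw [← he, mul_pow, pow_two √(N : ℝ), hs, mul_comm]
    exact mul_le_mul_of_nonneg_left hi.le N.cast_nonneg
  have h4 : √(⌊α * N⌋₊ : ℝ) ≤ √α * √N := by
    rw [← Real.sqrt_mul hα.le]; exact Real.sqrt_le_sqrt (Nat.floor_le (by positivity))
  show √(N : ℝ) - 2 ≤ |ψ G - _|
  refine le_trans ?_ (le_abs_self _)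
  linarith [hψ G u hu]

/-- The smallest eigenvalue does not fall below the edge. -/
theorem edge : EdgeStmt := by
  intro α hα δ hδ
  set e := √α - 1
  have he : 0 < e := sub_pos.2 (Real.lt_sqrt_of_sq_lt (by simpa using hα))
  set c := √(max (e ^ 2 - δ) 0)
  have hce : c < e := by
    rw [Real.sqrt_lt' he]
    exact max_lt (by linarith) (by positivity)
  set t := fun N : ℕ => √((⌊α * N⌋₊ : ℝ) - 4) - √N - 2 - c * √N
  have ht : Tendsto t atTop atTop := by
    have h1 : Tendsto (fun N : ℕ => √((⌊α * N⌋₊ : ℝ) / N - 4 / N) - 1 - c) atTop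
        (𝓝 (√(α - 0) - 1 - c)) :=
      ((((tendsto_floor_ratio (by linarith)).sub (tendsto_const_div_atTop_nhds_zero_nat 4)).sqrt).sub_const
        1).sub_const c
    rw [sub_zero] at h1
    have h2 := tendsto_atTop_add_const_right _ (-2)
      (Tendsto.atTop_mul_pos (sub_pos.2 hce)
        (Real.tendsto_sqrt_atTop.comp tendsto_natCast_atTop_atTop) h1)
    refine h2.congr' ((eventually_gt_atTop 0).mono fun N hN => ?_)
    have hs : (0 : ℝ) < N := by exact_mod_cast hN
    have : (⌊α * N⌋₊ : ℝ) / N - 4 / N = ((⌊α * N⌋₊ : ℝ) - 4) / N := by ring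
    simp only [t, this, Real.sqrt_div' _ hs.le, Function.comp_apply]
    field_simp
    ring
  refine squeeze_zero' (Eventually.of_forall fun N => measureReal_nonneg)
    (g := fun N : ℕ => 16 / t N ^ 2) ?_
    (tendsto_const_nhds.div_atTop ((tendsto_pow_atTop two_ne_zero).comp ht))
  filter_upwards [ht.eventually_gt_atTop 0, eventually_ge_atTop 1] with N h2 hN
  have : NeZero N := ⟨by omega⟩
  have hM : 1 ≤ α * N := le_trans hα.le (le_mul_of_one_le_right (by linarith) (by exact_mod_cast hN))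
  have : NeZero ⌊α * N⌋₊ := ⟨(Nat.floor_pos.2 hM).ne'⟩
  obtain ⟨ψ, hψ, hm, hc⟩ := lower_singular (M := ⌊α * N⌋₊) (N := N)
  refine (measureReal_mono ?_).trans (hc _ h2)
  rintro G ⟨i, hi⟩
  obtain ⟨u, hu, he⟩ := specVals_eq G i
  have h3 : nv (mulV G u) ≤ c * √N := by
    rw [← Real.sqrt_sq (nv_nonneg _), ← he, ← Real.sqrt_mul (le_max_right _ _), mul_comm (N : ℝ)]
    exact Real.sqrt_le_sqrt (mul_le_mul_of_nonneg_right (hi.le.trans (le_max_left _ _)) N.cast_nonneg)
  show t N ≤ |ψ G - _|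
  refine le_trans ?_ (neg_le_abs _)
  simp only [t]
  linarith [hψ G u hu]

lemma mpStieltjes_quad {α s : ℝ} (hs : 0 < s) :
    s * mpStieltjes α s ^ 2 + (s + α - 1) * mpStieltjes α s - 1 = 0 := by
  have h := Real.sq_sqrt (show (0 : ℝ) ≤ (s + α - 1) ^ 2 + 4 * s by positivity)
  unfold mpStieltjes
  generalize √((s + α - 1) ^ 2 + 4 * s) = r at h ⊢
  field_simp
  linear_combination h

/-- The support reaches down to the edge. -/
theorem support : SupportStmt := by
  intro α hα μ hμ
  obtain ⟨hP, hK, hpos, hG⟩ := hμ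
  by_contra hcon
  push Not at hcon
  set a := sInf μ.support
  have ha0 : 0 < a := (sq_nonneg _).trans_lt hcon
  have hae : ∀ᵐ x ∂μ, a ≤ x := by
    filter_upwards [Measure.support_mem_ae] with x hx using csInf_le hK.bddBelow hx
  rcases le_or_gt α 1 with hα1 | hα1
  · set s := min 1 (a ^ 2 / (2 * (1 + a))) with hsdef
    have hs : 0 < s := lt_min one_pos (by positivity)
    set g := mpStieltjes α s
    have hg : g ∈ Icc 0 a⁻¹ := by
      simp only [g]
      rw [← hG s hs]
      constructor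
      · exact integral_nonneg_of_ae (hae.mono fun x hx => inv_nonneg.2 (by linarith))
      · refine (integral_mono_of_nonneg (hae.mono fun x hx => inv_nonneg.2 (by linarith))
          (integrable_const a⁻¹) (hae.mono fun x hx => inv_anti₀ ha0 (by linarith))).trans_eq ?_
        simp
    have h := mpStieltjes_quad (α := α) hs
    have h1 : s * g ^ 2 ≤ s * (a⁻¹) ^ 2 :=
      mul_le_mul_of_nonneg_left (pow_le_pow_left₀ hg.1 hg.2 2) hs.le
    have h2 : (s + α - 1) * g ≤ s * a⁻¹ :=
      (mul_le_mul_of_nonneg_right (by linarith) hg.1).trans (mul_le_mul_of_nonneg_left hg.2 hs.le)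
    have h3 : s * ((a⁻¹) ^ 2 + a⁻¹) ≤ 1 / 2 := by
      refine (mul_le_mul_of_nonneg_right (min_le_right _ _) (by positivity)).trans_eq ?_
      field_simp
    linarith
  · rw [max_eq_left (sub_nonneg.2 (Real.one_le_sqrt.2 hα1.le))] at hcon
    set U : Set ℂ := {z | -a < z.re} with hU
    have hUo : IsOpen U := isOpen_lt continuous_const Complex.continuous_re
    set F : ℂ → ℂ := fun z => ∫ x, ((x : ℂ) + z)⁻¹ ∂μ with hFdef
    have hF : DifferentiableOn ℂ F U := by
      intro z₀ hz₀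
      set d := (a + z₀.re) / 2
      have hd : 0 < d := by simp only [hU, mem_ofPred_eq] at hz₀; simp only [d]; linarith
      have hb : ∀ x, a ≤ x → ∀ z ∈ Metric.ball z₀ d, d ≤ ‖(x : ℂ) + z‖ := by
        intro x hx z hz
        rw [Metric.mem_ball, dist_eq_norm] at hz
        have h1 := Complex.re_le_norm (z₀ - z)
        rw [norm_sub_rev] at h1
        refine le_trans ?_ (Complex.re_le_norm _)
        simp only [Complex.sub_re, Complex.add_re, Complex.ofReal_re, d] at *
        linarith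
      have hder := hasDerivAt_integral_of_dominated_loc_of_deriv_le (μ := μ)
        (F := fun z (x : ℝ) => ((x : ℂ) + z)⁻¹) (F' := fun z x => -1 / ((x : ℂ) + z) ^ 2)
        (bound := fun _ => 1 / d ^ 2) (Metric.ball_mem_nhds z₀ hd)
        (Eventually.of_forall fun z => (by fun_prop : Measurable _).aestronglyMeasurable)
        (Integrable.of_bound (by fun_prop : Measurable _).aestronglyMeasurable (1 / d)
          (hae.mono fun x hx => by
            rw [norm_inv, one_div]; exact inv_anti₀ hd (hb x hx z₀ (Metric.mem_ball_self hd))))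
        (by fun_prop : Measurable _).aestronglyMeasurable
        (hae.mono fun x hx z hz => by
          rw [norm_div, norm_neg, norm_one, norm_pow]
          exact div_le_div_of_nonneg_left zero_le_one (pow_pos hd 2)
            (pow_le_pow_left₀ hd.le (hb x hx z hz) 2))
        (integrable_const _)
        (hae.mono fun x hx z hz => by
          have : (x : ℂ) + z ≠ 0 := norm_pos_iff.1 (hd.trans_le (hb x hx z hz))
          exact ((hasDerivAt_id z).const_add (x : ℂ)).inv this)
      exact hder.2.differentiableAt.differentiableWithinAt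
    set P : ℂ → ℂ := fun z => z * F z ^ 2 + (z + α - 1) * F z - 1 with hPdef
    have hA : AnalyticOnNhd ℂ P U :=
      (((differentiableOn_id.mul (hF.pow 2)).add
        (((differentiableOn_id.add_const (α : ℂ)).sub_const 1).mul hF)).sub_const
          1).analyticOnNhd hUo
    have hr : ∀ s : ℝ, P s = ((s * (∫ x, (x + s)⁻¹ ∂μ) ^ 2 +
        (s + α - 1) * ∫ x, (x + s)⁻¹ ∂μ - 1 : ℝ) : ℂ) := fun s => by
      have : F s = ((∫ x, (x + s)⁻¹ ∂μ : ℝ) : ℂ) := by
        rw [← integral_complex_ofReal]; simp [hFdef]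
      simp [hPdef, this]
    have h1 : ((1 : ℝ) : ℂ) ∈ U := by simp only [hU, mem_ofPred_eq, Complex.ofReal_re]; linarith
    have hfreq : ∃ᶠ z in 𝓝[≠] ((1 : ℝ) : ℂ), P z = 0 := by
      have ht : Tendsto (fun s : ℝ => (s : ℂ)) (𝓝[≠] (1 : ℝ)) (𝓝[≠] ((1 : ℝ) : ℂ)) :=
        Complex.continuous_ofReal.continuousAt.continuousWithinAt.tendsto_nhdsWithin
          fun s hs => by simpa using hs
      refine ht.frequently (Eventually.frequently ?_)
      filter_upwards [nhdsWithin_le_nhds (lt_mem_nhds one_pos)] with s hs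
      rw [hr, hG s hs, mpStieltjes_quad hs, Complex.ofReal_zero]
    have hz := hA.eqOn_zero_of_preconnected_of_frequently_eq_zero
      (convex_halfSpace_re_gt _).isPreconnected h1 hfreq
    set e := √α - 1 with he
    have he0 : 0 < e := sub_pos.2 (Real.lt_sqrt_of_sq_lt (by simpa using hα1))
    set η := min ((a - e ^ 2) / 2) (√α)
    have hη : 0 < η := lt_min (by linarith) (by positivity)
    have hηa : η ≤ (a - e ^ 2) / 2 := min_le_left _ _
    have hηs : η ≤ √α := min_le_right _ _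
    set s : ℝ := -(e ^ 2 + η) with hs
    have hsU : (s : ℂ) ∈ U := by simp only [hU, mem_ofPred_eq, Complex.ofReal_re, hs]; linarith
    have h0 : P s = 0 := hz hsU
    rw [hr, Complex.ofReal_eq_zero] at h0
    set g := ∫ x, (x + s)⁻¹ ∂μ
    have hα2 := Real.mul_self_sqrt hα.le
    have hD : (s + α - 1) ^ 2 + 4 * s < 0 := by
      have : (s + α - 1) ^ 2 + 4 * s = η * (η - 4 * √α) := by
        have e1 : s + α - 1 = 2 * e - η := by simp only [hs, he]; linear_combination -hα2
        rw [e1, hs, he]; ring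
      rw [this]; exact mul_neg_of_pos_of_neg hη (by linarith [Real.sqrt_pos.2 hα])
    nlinarith [sq_nonneg (2 * s * g + (s + α - 1))]

end Vale.Agent.P166.NW.Spec
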