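import Mathlib
import Vale.Agent.P166.NW.Spec.Base
import Vale.Agent.P157.Potential

/-!
Resolvents of positive semidefinite matrices and quadratic forms of Gaussian vectors.
-/

noncomputable section

open MeasureTheory ProbabilityTheory Filter Matrix
open scoped Topology

namespace Vale.Agent.P166.NW.Spec

open Vale.Agent.P157 (gam integral_cexp_dot dot)

variable {N : ℕ}

/-- The resolvent `(A + s)⁻¹`. -/
def res (s : ℝ) (A : Matrix (Fin N) (Fin N) ℝ) : Matrix (Fin N) (Fin N) ℝ := (A + s • 1)⁻¹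

lemma res_mul {s : ℝ} (hs : 0 < s) {A : Matrix (Fin N) (Fin N) ℝ} (hA : A.PosSemidef) :
    IsUnit (A + s • 1).det ∧ (A + s • 1) * res s A = 1 ∧ res s A * (A + s • 1) = 1 := by
  have h : (A + s • 1).PosDef := Matrix.PosDef.posSemidef_add hA (Matrix.PosDef.one.smul hs)
  have hu : IsUnit (A + s • 1).det := isUnit_iff_ne_zero.2 h.det_pos.ne'
  exact ⟨hu, Matrix.mul_nonsing_inv _ hu, Matrix.nonsing_inv_mul _ hu⟩

/-- The resolvent in an eigenbasis. -/
lemma res_spectral {s : ℝ} (hs : 0 < s) {A : Matrix (Fin N) (Fin N) ℝ} (hA : A.PosSemidef) :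
    ∃ O : Matrix (Fin N) (Fin N) ℝ, Oᵀ * O = 1 ∧ O * Oᵀ = 1 ∧
      res s A = O * diagonal (fun i => (hA.isHermitian.eigenvalues i + s)⁻¹) * Oᵀ := by
  obtain ⟨U, hU⟩ : ∃ U, U = hA.isHermitian.eigenvectorUnitary := ⟨_, rfl⟩
  obtain ⟨lam, hlam⟩ : ∃ lam, lam = hA.isHermitian.eigenvalues := ⟨_, rfl⟩
  obtain ⟨O, hO⟩ : ∃ O : Matrix (Fin N) (Fin N) ℝ, O = (U : Matrix (Fin N) (Fin N) ℝ) := ⟨_, rfl⟩
  have hst : star O = Oᵀ := by
    rw [Matrix.star_eq_conjTranspose, conjTranspose_eq_transpose_of_trivial]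
  have h1 : Oᵀ * O = 1 := by rw [← hst, hO]; exact Unitary.coe_star_mul_self U
  have h2 : O * Oᵀ = 1 := by rw [← hst, hO]; exact Unitary.coe_mul_star_self U
  refine ⟨O, h1, h2, ?_⟩
  have hA' : A = O * diagonal lam * Oᵀ := by
    conv_lhs => rw [hA.isHermitian.spectral_theorem, Unitary.conjStarAlgAut_apply]
    simp [hO, hU, hlam, Matrix.star_eq_conjTranspose, conjTranspose_eq_transpose_of_trivial]
  have hl : ∀ i, 0 < lam i + s := fun i => by
    have := hA.eigenvalues_nonneg i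
    rw [hlam]
    linarith
  rw [← hlam, res]
  refine Matrix.inv_eq_right_inv ?_
  have e : A + s • 1 = O * diagonal (fun i => lam i + s) * Oᵀ := by
    rw [show diagonal (fun i => lam i + s) = diagonal lam + s • (1 : Matrix (Fin N) (Fin N) ℝ) by
      rw [Matrix.smul_one_eq_diagonal, diagonal_add], Matrix.mul_add, Matrix.add_mul, ← hA',
      Matrix.mul_smul, mul_one, Matrix.smul_mul, h2]
  rw [e]
  calc O * diagonal (fun i => lam i + s) * Oᵀ * (O * diagonal (fun i => (lam i + s)⁻¹) * Oᵀ)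
      = O * (diagonal (fun i => lam i + s) * (Oᵀ * O) * diagonal (fun i => (lam i + s)⁻¹)) * Oᵀ := by
        simp only [Matrix.mul_assoc]
    _ = 1 := by
        rw [h1, Matrix.mul_one, diagonal_mul_diagonal]
        simp only [mul_inv_cancel₀ (hl _).ne', diagonal_one, Matrix.mul_one, h2]

lemma trace_res {s : ℝ} (hs : 0 < s) {A : Matrix (Fin N) (Fin N) ℝ} (hA : A.PosSemidef) :
    trace (res s A) = ∑ i, (hA.isHermitian.eigenvalues i + s)⁻¹ := by
  obtain ⟨O, h1, -, h⟩ := res_spectral hs hA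
  rw [h, Matrix.trace_mul_comm, ← Matrix.mul_assoc, h1, Matrix.one_mul, trace_diagonal]

lemma eig_weight_mem {s : ℝ} (hs : 0 < s) {A : Matrix (Fin N) (Fin N) ℝ} (hA : A.PosSemidef)
    (i : Fin N) :
    0 ≤ (hA.isHermitian.eigenvalues i + s)⁻¹ ∧ (hA.isHermitian.eigenvalues i + s)⁻¹ ≤ 1 / s := by
  have := hA.eigenvalues_nonneg i
  refine ⟨by positivity, ?_⟩
  rw [one_div]
  exact inv_anti₀ hs (by linarith)

/-- The facts about the quadratic form of the resolvent. -/
lemma res_quad {s : ℝ} (hs : 0 < s) {A : Matrix (Fin N) (Fin N) ℝ} (hA : A.PosSemidef)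
    (v : Fin N → ℝ) :
    0 ≤ v ⬝ᵥ (res s A *ᵥ v) ∧ v ⬝ᵥ (res s A *ᵥ v) ≤ (∑ i, v i ^ 2) / s ∧
      (res s A *ᵥ v) ⬝ᵥ (res s A *ᵥ v) ≤ (v ⬝ᵥ (res s A *ᵥ v)) / s := by
  obtain ⟨O, h1, h2, h⟩ := res_spectral hs hA
  set w := fun i => (hA.isHermitian.eigenvalues i + s)⁻¹
  have hw := eig_weight_mem hs hA
  set y := Oᵀ *ᵥ v
  have hR : res s A *ᵥ v = O *ᵥ (diagonal w *ᵥ y) := by
    rw [h, ← mulVec_mulVec, ← mulVec_mulVec]
  have hO : ∀ a b : Fin N → ℝ, (O *ᵥ a) ⬝ᵥ (O *ᵥ b) = a ⬝ᵥ b := fun a b => by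
    rw [dotProduct_mulVec, ← mulVec_transpose, mulVec_mulVec, h1, one_mulVec]
  have hv : ∀ b : Fin N → ℝ, v ⬝ᵥ (O *ᵥ b) = y ⬝ᵥ b := fun b => by
    rw [dotProduct_mulVec, ← mulVec_transpose]
  have hy : ∑ i, v i ^ 2 = ∑ i, y i ^ 2 := by
    have e : y ⬝ᵥ y = v ⬝ᵥ v := by
      rw [← hv, mulVec_mulVec, h2, one_mulVec]
    simp only [dotProduct, ← sq] at e
    exact e.symm
  rw [hR, hO, hv]
  simp only [dotProduct, mulVec_diagonal]
  refine ⟨Finset.sum_nonneg fun i _ => ?_, ?_, ?_⟩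
  · rw [show y i * (w i * y i) = w i * y i ^ 2 by ring]
    exact mul_nonneg (hw i).1 (sq_nonneg _)
  · rw [hy, Finset.sum_div]
    refine Finset.sum_le_sum fun i _ => ?_
    rw [show y i * (w i * y i) = w i * y i ^ 2 by ring, div_eq_mul_one_div, mul_comm (y i ^ 2)]
    exact mul_le_mul_of_nonneg_right (hw i).2 (sq_nonneg _)
  · rw [Finset.sum_div]
    refine Finset.sum_le_sum fun i _ => ?_
    rw [show w i * y i * (w i * y i) = w i * (w i * y i ^ 2) by ring,
      show y i * (w i * y i) / s = 1 / s * (w i * y i ^ 2) by ring]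
    exact mul_le_mul_of_nonneg_right (hw i).2 (mul_nonneg (hw i).1 (sq_nonneg _))

lemma measurePreserving_orth {O : Matrix (Fin N) (Fin N) ℝ} (h : Oᵀ * O = 1) :
    MeasurePreserving (fun v => Oᵀ *ᵥ v) (gam (Fin N)) (gam (Fin N)) := by
  have hm : Measurable fun v : Fin N → ℝ => Oᵀ *ᵥ v :=
    (continuous_const.matrix_mulVec continuous_id).measurable
  refine ⟨hm, ?_⟩
  have hL : (gam (Fin N)).map (fun v => WithLp.toLp 2 (Oᵀ *ᵥ v)) =
      (gam (Fin N)).map (WithLp.toLp 2) := by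
    apply Measure.ext_of_charFun
    ext t
    rw [charFun_apply, charFun_apply, integral_map (by fun_prop) (by fun_prop),
      integral_map (by fun_prop) (by fun_prop)]
    have e1 : ∀ g : Fin N → ℝ, inner ℝ (WithLp.toLp 2 g) t = dot g fun i => t i := fun g => by
      simp [PiLp.inner_apply, dot, mul_comm]
    have e2 : ∀ g : Fin N → ℝ, dot (Oᵀ *ᵥ g) (fun i => t i) = dot g (O *ᵥ fun i => t i) :=
      fun g => by
        change (Oᵀ *ᵥ g) ⬝ᵥ _ = g ⬝ᵥ _
        rw [dotProduct_mulVec g O, ← mulVec_transpose]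
    simp only [e1, e2, integral_cexp_dot]
    congr 4
    have e : (O *ᵥ fun i => t i) ⬝ᵥ (O *ᵥ fun i => t i) = (fun i => t i) ⬝ᵥ fun i => t i := by
      rw [dotProduct_mulVec, ← mulVec_transpose, mulVec_mulVec, h, one_mulVec]
    simp only [dotProduct, ← sq] at e
    exact e
  have h' := congrArg (Measure.map (WithLp.ofLp : EuclideanSpace ℝ (Fin N) → Fin N → ℝ)) hL
  rw [Measure.map_map (WithLp.measurable_ofLp 2 _) (by fun_prop),
    Measure.map_map (WithLp.measurable_ofLp 2 _) (by fun_prop)] at h'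
  exact h'.trans Measure.map_id

/-- The variance of the square of a standard Gaussian. -/
def sqVar : ℝ := variance (fun x : ℝ => x ^ 2) (gaussianReal 0 1)

/-- A Gaussian quadratic form of the resolvent is close to its trace. -/
lemma quad_concentration {s : ℝ} (hs : 0 < s) {A : Matrix (Fin N) (Fin N) ℝ} (hA : A.PosSemidef) :
    Integrable (fun v => |v ⬝ᵥ (res s A *ᵥ v) - trace (res s A)|) (gam (Fin N)) ∧
    ∫ v, |v ⬝ᵥ (res s A *ᵥ v) - trace (res s A)| ∂gam (Fin N) ≤
      Real.sqrt (N * sqVar) / s := by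
  obtain ⟨O, h1, -, h⟩ := res_spectral hs hA
  have hw := eig_weight_mem hs hA
  set w := fun i => (hA.isHermitian.eigenvalues i + s)⁻¹
  have hsq2 : MemLp (fun x : ℝ => x ^ 2) 2 (gaussianReal 0 1) := by
    rw [memLp_two_iff_integrable_sq (by fun_prop)]
    have h := (IsGaussian.memLp_id (gaussianReal 0 1) (p := 4) (by norm_num)).integrable_norm_pow
      (p := 4) (by norm_num)
    refine h.congr (Filter.Eventually.of_forall fun x => ?_)
    simp only [id, Real.norm_eq_abs]
    rw [← pow_mul]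
    exact (Even.pow_abs (by decide : Even 4) x)
  have hmem : ∀ i, MemLp (fun x : ℝ => w i * (x ^ 2 - 1)) 2 (gaussianReal 0 1) := fun i =>
    (hsq2.sub (memLp_const 1)).const_mul (w i)
  set X : (Fin N → ℝ) → ℝ := fun y => ∑ i, w i * (y i ^ 2 - 1)
  have hL : MemLp X 2 (gam (Fin N)) :=
    memLp_finsetSum _ fun i _ => (hmem i).comp_measurePreserving (measurePreserving_eval _ i)
  have hmean1 : ∫ x : ℝ, x ^ 2 ∂gaussianReal 0 1 = 1 := by
    have := variance_eq_sub (IsGaussian.memLp_two_id (μ := gaussianReal 0 1))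
    rw [variance_id_gaussianReal] at this
    simpa using this.symm
  have hmean : ∫ y, X y ∂gam (Fin N) = 0 := by
    simp only [X]
    have hi : ∀ i ∈ Finset.univ, Integrable (fun y : Fin N → ℝ => w i * (y i ^ 2 - 1))
        (gam (Fin N)) := fun i _ =>
      ((hmem i).comp_measurePreserving (measurePreserving_eval _ i)).integrable one_le_two
    rw [integral_finsetSum _ hi]
    refine Finset.sum_eq_zero fun i _ => ?_
    rw [integral_comp_eval (μ := fun _ : Fin N => gaussianReal 0 1) (i := i)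
      (f := fun x : ℝ => w i * (x ^ 2 - 1)) (hmem i).aestronglyMeasurable, integral_const_mul,
      integral_sub (hsq2.integrable one_le_two) (integrable_const _), hmean1]
    simp
  have hv := variance_sum_pi (μ := fun _ : Fin N => gaussianReal 0 1) hmem
  rw [show (∑ i, fun y : Fin N → ℝ => w i * (y i ^ 2 - 1)) = X by ext y; simp [X]] at hv
  have hvar : variance X (gam (Fin N)) ≤ N * sqVar / s ^ 2 := by
    rw [hv]
    refine (Finset.sum_le_sum fun i _ => (?_ : _ ≤ (1 / s) ^ 2 * sqVar)).trans (le_of_eq ?_)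
    · rw [variance_const_mul, variance_sub_const hsq2.aestronglyMeasurable]
      exact mul_le_mul_of_nonneg_right (pow_le_pow_left₀ (hw i).1 (hw i).2 2) (variance_nonneg _ _)
    · simp only [Finset.sum_const, Finset.card_univ, Fintype.card_fin, nsmul_eq_mul]
      ring
  have habs : ∫ y, |X y| ∂gam (Fin N) ≤ Real.sqrt (N * sqVar) / s := by
    have h2 := variance_nonneg (fun y => |X y|) (gam (Fin N))
    rw [variance_eq_sub (show MemLp (fun y => |X y|) 2 (gam (Fin N)) from hL.norm)] at h2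
    simp only [Pi.pow_apply, sq_abs] at h2
    rw [variance_eq_sub hL, hmean] at hvar
    simp only [Pi.pow_apply] at hvar
    have hle : (∫ y, |X y| ∂gam (Fin N)) ^ 2 ≤ N * sqVar / s ^ 2 := by linarith
    refine (Real.le_sqrt_of_sq_le hle).trans (le_of_eq ?_)
    rw [Real.sqrt_div' _ (sq_nonneg s), Real.sqrt_sq hs.le]
  have hmp := measurePreserving_orth h1
  have hXi : Integrable (fun y => |X y|) (gam (Fin N)) := (hL.integrable one_le_two).abs
  have e : ∀ v : Fin N → ℝ, |v ⬝ᵥ (res s A *ᵥ v) - trace (res s A)| = |X (Oᵀ *ᵥ v)| := fun v => by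
    congr 1
    rw [trace_res hs hA, h, ← mulVec_mulVec, ← mulVec_mulVec, dotProduct_mulVec,
      ← mulVec_transpose]
    simp only [X, dotProduct, mulVec_diagonal, ← Finset.sum_sub_distrib]
    exact Finset.sum_congr rfl fun i _ => by ring
  simp only [e]
  refine ⟨hmp.integrable_comp_of_integrable hXi, le_of_eq_of_le ?_ habs⟩
  have := integral_map (μ := gam (Fin N)) hmp.measurable.aemeasurable (f := fun y => |X y|)
    (by rw [hmp.map_eq]; exact hXi.aestronglyMeasurable)
  rw [hmp.map_eq] at this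
  exact this.symm

end Vale.Agent.P166.NW.Spec
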