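import Mathlib
import Vale.Agent.P166.NW.Spec.EsdTools

/-!
The resolvent trace of `N⁻¹ Gᵀ G` by removing one pattern at a time.
-/

noncomputable section

open MeasureTheory ProbabilityTheory Filter Matrix
open scoped Topology

namespace Vale.Agent.P166.NW.Spec

open Vale.Agent.P157 (gam patterns)

variable {M N : ℕ}

/-- The array with the pattern `k` removed. -/
def drop1 (k : Fin M) (g : Fin M → Fin N → ℝ) : Fin M → Fin N → ℝ := Function.update g k 0

/-- The normalised resolvent trace. -/
def tr1 (s : ℝ) (g : Fin M → Fin N → ℝ) : ℝ := trace (res s (gram g)) / N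

/-- The quadratic form of pattern `k` in the resolvent of the others. -/
def qf (s : ℝ) (k : Fin M) (g : Fin M → Fin N → ℝ) : ℝ :=
  (g k ⬝ᵥ (res s (gram (drop1 k g)) *ᵥ g k)) / N

/-- `x / (1 + x)`. -/
def phi1 (x : ℝ) : ℝ := x / (1 + x)

lemma abs_phi1_sub_le {x y : ℝ} (hx : 0 ≤ x) (hy : 0 ≤ y) : |phi1 x - phi1 y| ≤ |x - y| := by
  have e : phi1 x - phi1 y = (x - y) / ((1 + x) * (1 + y)) := by
    unfold phi1; field_simp; ring
  rw [e, abs_div, abs_of_pos (show 0 < (1 + x) * (1 + y) by positivity)]
  exact div_le_self (abs_nonneg _) (one_le_mul_of_one_le_of_one_le (by linarith) (by linarith))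

lemma phi1_mem {x : ℝ} (hx : 0 ≤ x) : 0 ≤ phi1 x ∧ phi1 x ≤ 1 :=
  ⟨div_nonneg hx (by linarith), (div_le_one (by linarith)).2 (by linarith)⟩

lemma tr1_eq {s : ℝ} (hs : 0 < s) (g : Fin M → Fin N → ℝ) :
    tr1 s g = (∑ i, (specVals g i + s)⁻¹) / N := by
  rw [tr1, trace_res hs (gram_posSemidef g), specVals]

lemma tr1_mem {s : ℝ} (hs : 0 < s) (g : Fin M → Fin N → ℝ) : 0 ≤ tr1 s g ∧ tr1 s g ≤ 1 / s := by
  rcases Nat.eq_zero_or_pos N with h | h
  · subst h
    rw [tr1, Nat.cast_zero, div_zero]
    exact ⟨le_rfl, by positivity⟩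
  have hw := eig_weight_mem hs (gram_posSemidef g)
  rw [tr1, trace_res hs (gram_posSemidef g)]
  refine ⟨div_nonneg (Finset.sum_nonneg fun i _ => (hw i).1) (Nat.cast_nonneg _), ?_⟩
  rw [div_le_iff₀ (Nat.cast_pos.2 h)]
  refine (Finset.sum_le_sum fun i _ => (hw i).2).trans (le_of_eq ?_)
  simp [mul_comm]

lemma qf_nonneg {s : ℝ} (hs : 0 < s) (k : Fin M) (g : Fin M → Fin N → ℝ) : 0 ≤ qf s k g :=
  div_nonneg (res_quad hs (gram_posSemidef _) _).1 (Nat.cast_nonneg _)

lemma gram_apply (g : Fin M → Fin N → ℝ) (i j : Fin N) :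
    gram g i j = (N : ℝ)⁻¹ * ∑ b, g b i * g b j := by
  simp [gram, Matrix.mul_apply]

lemma gram_drop1 (k : Fin M) (g : Fin M → Fin N → ℝ) :
    gram g = gram (drop1 k g) + (N : ℝ)⁻¹ • vecMulVec (g k) (g k) := by
  ext i j
  simp only [Matrix.add_apply, Matrix.smul_apply, gram_apply, vecMulVec_apply, smul_eq_mul,
    ← mul_add]
  congr 1
  rw [← Finset.add_sum_erase _ _ (Finset.mem_univ k),
    ← Finset.add_sum_erase _ (fun b => drop1 k g b i * drop1 k g b j) (Finset.mem_univ k), add_comm]
  simp only [drop1, Function.update_self, Pi.zero_apply, mul_zero, zero_add]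
  congr 1
  exact Finset.sum_congr rfl fun b hb => by rw [Function.update_of_ne (Finset.ne_of_mem_erase hb)]

/-- Removing one pattern. -/
lemma loo {s : ℝ} (hs : 0 < s) (hN : 0 < N) (k : Fin M) (g : Fin M → Fin N → ℝ) :
    (g k ⬝ᵥ (res s (gram g) *ᵥ g k)) / N = phi1 (qf s k g) ∧
      |tr1 s (drop1 k g) - tr1 s g| ≤ 1 / (s * N) := by
  have hN' : (0 : ℝ) < N := Nat.cast_pos.2 hN
  obtain ⟨-, hl, hr⟩ := res_mul hs (gram_posSemidef g)
  obtain ⟨-, hl', hr'⟩ := res_mul hs (gram_posSemidef (drop1 k g))
  set R := res s (gram g)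
  set R' := res s (gram (drop1 k g))
  set v := g k
  set u := R' *ᵥ v with hu
  set q := qf s k g with hq
  have hq0 : 0 ≤ q := qf_nonneg hs k g
  have hvu : (N : ℝ)⁻¹ * (v ⬝ᵥ u) = q := by
    rw [hq, qf, inv_mul_eq_div]
  have hvv : ∀ x : Fin N → ℝ, vecMulVec v v *ᵥ x = (v ⬝ᵥ x) • v := fun x => by
    ext i
    simp only [mulVec, vecMulVec_apply, dotProduct, Pi.smul_apply, smul_eq_mul, Finset.sum_mul]
    exact Finset.sum_congr rfl fun j _ => by ring
  have hA : gram g + s • 1 = gram (drop1 k g) + s • 1 + (N : ℝ)⁻¹ • vecMulVec v v := by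
    rw [gram_drop1 k g]; abel
  have hAu : (gram g + s • 1) *ᵥ u = (1 + q) • v := by
    rw [hA, add_mulVec, smul_mulVec, hvv, hu, mulVec_mulVec, hl', one_mulVec, smul_smul, hvu,
      add_smul, one_smul]
  have hRv : R *ᵥ v = (1 + q)⁻¹ • u := by
    have h := congrArg (R *ᵥ ·) hAu
    simp only [mulVec_mulVec, hr, one_mulVec, mulVec_smul] at h
    rw [h, smul_smul, inv_mul_cancel₀ (by linarith), one_smul]
  constructor
  · rw [hRv, dotProduct_smul, smul_eq_mul, phi1, ← hvu]
    ring
  · have hdiff : R' - R = R * ((N : ℝ)⁻¹ • vecMulVec v v) * R' := by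
      have : (N : ℝ)⁻¹ • vecMulVec v v = (gram g + s • 1) - (gram (drop1 k g) + s • 1) := by
        rw [hA, add_sub_cancel_left]
      rw [this, Matrix.mul_sub, Matrix.sub_mul, hr, Matrix.one_mul, Matrix.mul_assoc, hl',
        Matrix.mul_one]
    have htr : trace R' - trace R = (N : ℝ)⁻¹ * ((1 + q)⁻¹ * (u ⬝ᵥ u)) := by
      rw [← trace_sub, hdiff, Matrix.mul_smul, Matrix.smul_mul, trace_smul, smul_eq_mul,
        mul_vecMulVec, hRv, Matrix.vecMulVec_mul, trace_vecMulVec, smul_dotProduct, smul_eq_mul]
      congr 2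
      congr 1
      have hsym : R'ᵀ = R' := by
        obtain ⟨O, -, -, h⟩ := res_spectral hs (gram_posSemidef (drop1 k g))
        rw [show R' = _ from h, transpose_mul, transpose_mul, transpose_transpose,
          diagonal_transpose, Matrix.mul_assoc]
      rw [← mulVec_transpose, hsym]
    have h3 : u ⬝ᵥ u ≤ (v ⬝ᵥ u) / s := (res_quad hs (gram_posSemidef (drop1 k g)) v).2.2
    have hu0 : 0 ≤ u ⬝ᵥ u := Finset.sum_nonneg fun i _ => mul_self_nonneg _
    have h4 : trace R' - trace R ≤ 1 / s := by
      rw [htr]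
      calc (N : ℝ)⁻¹ * ((1 + q)⁻¹ * (u ⬝ᵥ u)) ≤ (N : ℝ)⁻¹ * ((1 + q)⁻¹ * ((v ⬝ᵥ u) / s)) :=
            mul_le_mul_of_nonneg_left (mul_le_mul_of_nonneg_left h3 (by positivity)) (by positivity)
        _ = phi1 q * (1 / s) := by rw [phi1, ← hvu]; ring
        _ ≤ 1 * (1 / s) := mul_le_mul_of_nonneg_right (phi1_mem hq0).2 (by positivity)
        _ = 1 / s := one_mul _
    have h5 : 0 ≤ trace R' - trace R := by
      rw [htr]; positivity
    rw [show tr1 s (drop1 k g) - tr1 s g = (trace R' - trace R) / N by
        simp only [tr1, sub_div]; rfl,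
      abs_div, abs_of_nonneg h5, abs_of_pos hN', ← div_div]
    exact div_le_div_of_nonneg_right h4 hN'.le

/-- The resolvent identity. -/
lemma one_sub_tr1 {s : ℝ} (hs : 0 < s) (hN : 0 < N) (g : Fin M → Fin N → ℝ) :
    1 - s * tr1 s g = (∑ k, phi1 (qf s k g)) / N := by
  have hN' : (0 : ℝ) < N := Nat.cast_pos.2 hN
  obtain ⟨-, -, hr⟩ := res_mul hs (gram_posSemidef g)
  simp only [← fun k => (loo hs hN k g).1]
  rw [← Finset.sum_div]
  have h1 : trace (res s (gram g) * (gram g + s • (1 : Matrix (Fin N) (Fin N) ℝ))) = (N : ℝ) := by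
    rw [hr, trace_one, Fintype.card_fin]
  rw [Matrix.mul_add, trace_add, Matrix.mul_smul, Matrix.mul_one, trace_smul, smul_eq_mul] at h1
  have h2 : trace (res s (gram g) * gram g) =
      (∑ k, g k ⬝ᵥ (res s (gram g) *ᵥ g k)) / N := by
    set R := res s (gram g)
    simp only [trace, diag_apply, Matrix.mul_apply, gram_apply, dotProduct, mulVec, Finset.mul_sum,
      Finset.sum_div]
    conv_rhs => rw [Finset.sum_comm]
    refine Finset.sum_congr rfl fun i _ => ?_
    rw [Finset.sum_comm]
    refine Finset.sum_congr rfl fun k _ => Finset.sum_congr rfl fun j _ => ?_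
    field_simp
  rw [h2] at h1
  rw [tr1, eq_div_iff hN'.ne', sub_mul, one_mul, mul_assoc, div_mul_cancel₀ _ hN'.ne']
  linarith

lemma continuous_gram : Continuous (gram (M := M) (N := N)) := by
  refine continuous_matrix fun i j => ?_
  simp only [gram_apply]
  fun_prop

lemma continuous_res {s : ℝ} (hs : 0 < s) :
    Continuous fun g : Fin M → Fin N → ℝ => res s (gram g) := by
  have hB : Continuous fun g : Fin M → Fin N → ℝ => gram g + s • (1 : Matrix (Fin N) (Fin N) ℝ) :=
    continuous_gram.add continuous_const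
  simp only [res, Matrix.inv_def, Ring.inverse_eq_inv']
  exact (hB.matrix_det.inv₀ fun g => (res_mul hs (gram_posSemidef g)).1.ne_zero).smul
    hB.matrix_adjugate

lemma continuous_tr1 {s : ℝ} (hs : 0 < s) :
    Continuous fun g : Fin M → Fin N → ℝ => tr1 s g :=
  (continuous_res hs).matrix_trace.div_const _

lemma continuous_drop1 (k : Fin M) : Continuous (drop1 (N := N) k) :=
  continuous_pi fun b => by
    by_cases h : b = k
    · subst h; simp only [drop1, Function.update_self]; exact continuous_const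
    · simp only [drop1, Function.update_of_ne h]; exact continuous_apply b

lemma continuous_qf {s : ℝ} (hs : 0 < s) (k : Fin M) :
    Continuous fun g : Fin M → Fin N → ℝ => qf s k g :=
  ((continuous_apply k).dotProduct (((continuous_res hs).comp (continuous_drop1 k)).matrix_mulVec
    (continuous_apply k))).div_const _

lemma measurePreserving_update (k : Fin M) :
    MeasurePreserving (fun p : (Fin M → Fin N → ℝ) × (Fin N → ℝ) => Function.update p.1 k p.2)
      ((patterns M N).prod (gam (Fin N))) (patterns M N) := by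
  have hm : Measurable fun p : (Fin M → Fin N → ℝ) × (Fin N → ℝ) => Function.update p.1 k p.2 := by
    refine measurable_pi_lambda _ fun b => ?_
    by_cases h : b = k
    · subst h; simp only [Function.update_self]; exact measurable_snd
    · simp only [Function.update_of_ne h]; exact (measurable_pi_apply b).comp measurable_fst
  refine ⟨hm, ?_⟩
  unfold patterns
  refine (Measure.pi_eq fun S hS => ?_).symm
  rw [Measure.map_apply hm (MeasurableSet.univ_pi hS)]
  have e : (fun p : (Fin M → Fin N → ℝ) × (Fin N → ℝ) => Function.update p.1 k p.2) ⁻¹'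
      Set.univ.pi S = Set.univ.pi (Function.update S k Set.univ) ×ˢ S k := by
    ext ⟨p, v⟩
    simp only [Set.mem_preimage, Set.mem_univ_pi, Set.mem_prod]
    constructor
    · intro h
      refine ⟨fun b => ?_, by simpa using h k⟩
      by_cases hb : b = k
      · subst hb; simp
      · simpa [Function.update_of_ne hb] using h b
    · rintro ⟨h, hv⟩ b
      by_cases hb : b = k
      · subst hb; simpa using hv
      · simpa [Function.update_of_ne hb] using h b
  rw [e, Measure.prod_prod, Measure.pi_pi, ← Finset.mul_prod_erase _ _ (Finset.mem_univ k),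
    ← Finset.mul_prod_erase _ (fun b => (Measure.pi fun _ : Fin N => gaussianReal 0 1) (S b))
      (Finset.mem_univ k), Function.update_self, measure_univ, one_mul, mul_comm]
  congr 1
  exact Finset.prod_congr rfl fun b hb => by rw [Function.update_of_ne (Finset.ne_of_mem_erase hb)]

/-- The quadratic form of a pattern is close to the trace, on average. -/
lemma qf_concentration {s : ℝ} (hs : 0 < s) (k : Fin M) :
    Integrable (fun g => |qf s k g - tr1 s (drop1 k g)|) (patterns M N) ∧
      ∫ g, |qf s k g - tr1 s (drop1 k g)| ∂patterns M N ≤ Real.sqrt (N * sqVar) / (s * N) := by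
  have hN' : (0 : ℝ) ≤ N := Nat.cast_nonneg N
  set F : (Fin M → Fin N → ℝ) → ℝ := fun g => |qf s k g - tr1 s (drop1 k g)|
  have hFc : Continuous F :=
    ((continuous_qf hs k).sub ((continuous_tr1 hs).comp (continuous_drop1 k))).abs
  have : IsProbabilityMeasure (patterns M N) := by unfold patterns; infer_instance
  have hFi : Integrable F (patterns M N) := by
    refine Integrable.mono' (g := fun g : Fin M → Fin N → ℝ => (∑ i, g k i ^ 2) / s / N + 1 / s)
      (Integrable.add (((integrable_finsetSum _ fun i _ => ?_).div_const _).div_const _)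
        (integrable_const _))
      hFc.aestronglyMeasurable (Eventually.of_forall fun g => ?_)
    · exact ((measurePreserving_eval (fun _ : Fin N => gaussianReal 0 1) i).comp
        (measurePreserving_eval (fun _ : Fin M => gam (Fin N)) k)).integrable_comp_of_integrable
        (g := fun x : ℝ => x ^ 2) (IsGaussian.memLp_two_id.integrable_sq)
    · rw [Real.norm_eq_abs]
      simp only [F, abs_abs]
      refine (abs_sub _ _).trans (add_le_add ?_ ?_)
      · rw [abs_of_nonneg (qf_nonneg hs k g)]
        exact div_le_div_of_nonneg_right (res_quad hs (gram_posSemidef _) _).2.1 hN'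
      · rw [abs_of_nonneg (tr1_mem hs _).1]; exact (tr1_mem hs _).2
  refine ⟨hFi, ?_⟩
  have hmp := measurePreserving_update (N := N) k
  have hFp : Integrable (fun p : (Fin M → Fin N → ℝ) × (Fin N → ℝ) => F (Function.update p.1 k p.2))
      ((patterns M N).prod (gam (Fin N))) := hmp.integrable_comp_of_integrable hFi
  have h := integral_map (μ := (patterns M N).prod (gam (Fin N))) hmp.measurable.aemeasurable
    (f := F) hFc.aestronglyMeasurable
  rw [hmp.map_eq] at h
  rw [h, integral_prod _ hFp]
  refine (integral_mono hFp.integral_prod_left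
    (integrable_const (Real.sqrt (N * sqVar) / (s * N))) fun g => ?_).trans (le_of_eq ?_)
  · have hd : ∀ v, drop1 k (Function.update g k v) = drop1 k g := fun v => by
      simp [drop1, Function.update_idem]
    have e : ∀ v, F (Function.update g k v) =
        |v ⬝ᵥ (res s (gram (drop1 k g)) *ᵥ v) - trace (res s (gram (drop1 k g)))| / N := fun v => by
      simp only [F, qf, tr1, hd, Function.update_self, ← sub_div, abs_div, Nat.abs_cast]
    simp only [e]
    rw [integral_div, ← div_div]
    exact div_le_div_of_nonneg_right (quad_concentration hs (gram_posSemidef _)).2 hN'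
  · simp

/-- The averaged quadratic equation of the resolvent trace. -/
lemma tr1_equation {s : ℝ} (hs : 0 < s) (hN : 0 < N) :
    ∫ g, |1 - s * tr1 s g - (M : ℝ) / N * phi1 (tr1 s g)| ∂patterns M N ≤
      (M : ℝ) / N * ((Real.sqrt (N * sqVar) + 1) / (s * N)) := by
  have hN' : (0 : ℝ) < N := Nat.cast_pos.2 hN
  have : IsProbabilityMeasure (patterns M N) := by unfold patterns; infer_instance
  have hbd : ∀ g : Fin M → Fin N → ℝ, |1 - s * tr1 s g - (M : ℝ) / N * phi1 (tr1 s g)| ≤
      (∑ k, (|qf s k g - tr1 s (drop1 k g)| + 1 / (s * N))) / N := fun g => by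
    have e : 1 - s * tr1 s g - (M : ℝ) / N * phi1 (tr1 s g) =
        (∑ k, (phi1 (qf s k g) - phi1 (tr1 s g))) / N := by
      rw [one_sub_tr1 hs hN, Finset.sum_sub_distrib, Finset.sum_const, Finset.card_univ,
        Fintype.card_fin, nsmul_eq_mul]
      ring
    rw [e, abs_div, abs_of_pos hN']
    refine div_le_div_of_nonneg_right ((Finset.abs_sum_le_sum_abs _ _).trans
      (Finset.sum_le_sum fun k _ => ?_)) hN'.le
    refine (abs_phi1_sub_le (qf_nonneg hs k g) (tr1_mem hs g).1).trans ?_
    exact (abs_sub_le _ (tr1 s (drop1 k g)) _).trans (add_le_add le_rfl (loo hs hN k g).2)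
  have hc : Continuous fun g : Fin M → Fin N → ℝ =>
      |1 - s * tr1 s g - (M : ℝ) / N * phi1 (tr1 s g)| := by
    have ht := continuous_tr1 (M := M) (N := N) hs
    have hp : Continuous fun g : Fin M → Fin N → ℝ => phi1 (tr1 s g) :=
      ht.div (continuous_const.add ht) fun g =>
        ne_of_gt (show 0 < 1 + tr1 s g by linarith [(tr1_mem hs g).1])
    exact ((continuous_const.sub (continuous_const.mul ht)).sub (continuous_const.mul hp)).abs
  have hi : ∀ k : Fin M, Integrable (fun g => |qf s k g - tr1 s (drop1 k g)| + 1 / (s * N))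
      (patterns M N) := fun k => (qf_concentration hs k).1.fun_add (integrable_const _)
  have hr : Integrable (fun g : Fin M → Fin N → ℝ =>
      (∑ k, (|qf s k g - tr1 s (drop1 k g)| + 1 / (s * N))) / N) (patterns M N) :=
    (integrable_finsetSum _ fun k _ => hi k).div_const _
  refine (integral_mono (hr.mono' hc.aestronglyMeasurable (Eventually.of_forall fun g => by
    rw [Real.norm_eq_abs, abs_abs]; exact hbd g)) hr hbd).trans ?_
  rw [integral_div, integral_finsetSum _ fun k _ => hi k, div_mul_eq_mul_div]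
  refine div_le_div_of_nonneg_right ((Finset.sum_le_sum fun k _ =>
    (?_ : _ ≤ (Real.sqrt (N * sqVar) + 1) / (s * N))).trans (le_of_eq ?_)) hN'.le
  · rw [integral_add (qf_concentration hs k).1 (integrable_const _), add_div]
    simp only [integral_const, probReal_univ, smul_eq_mul, one_mul]
    exact add_le_add (qf_concentration hs k).2 le_rfl
  · simp

end Vale.Agent.P166.NW.Spec
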