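import Mathlib
import Vale.Agent.P166.NW.Spec.Base

/-!
Resolvents at `1, 2, …` determine weak limits of bounded nonnegative spectra.
-/

noncomputable section

open MeasureTheory Filter
open scoped Topology BoundedContinuousFunction

namespace Vale.Agent.P166.NW.Spec

lemma resolvent_expansion {x s : ℝ} (hxs : x + s ≠ 0) (hs : s ≠ 0) (j : ℕ) :
    x ^ j = (-1) ^ j * s ^ (j + 1) *
        ((x + s)⁻¹ - ∑ i ∈ Finset.range j, (-1) ^ i / s ^ (i + 1) * x ^ i) +
      x ^ (j + 1) / (x + s) := by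
  have key : (x + s)⁻¹ - ∑ i ∈ Finset.range j, (-1) ^ i / s ^ (i + 1) * x ^ i =
      (-1) ^ j * x ^ j / (s ^ j * (x + s)) := by
    induction j with
    | zero => simp
    | succ j ih =>
      rw [Finset.sum_range_succ, ← sub_sub, ih]
      field_simp
      ring
  rw [key]
  have h1 : ((-1 : ℝ) ^ j) * (-1) ^ j = 1 := by rw [← mul_pow]; norm_num
  have h2 : (-1) ^ j * s ^ (j + 1) * ((-1) ^ j * x ^ j / (s ^ j * (x + s))) = x ^ j * s / (x + s) := by
    rw [show (-1) ^ j * s ^ (j + 1) * ((-1) ^ j * x ^ j / (s ^ j * (x + s))) =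
      ((-1) ^ j * (-1) ^ j) * (s ^ (j + 1) * x ^ j / (s ^ j * (x + s))) by ring, h1, one_mul,
      pow_succ]
    field_simp
  rw [h2, ← add_div, eq_div_iff hxs]
  ring

/-- Moments converge. -/
lemma tendsto_moment {C : ℝ} (hC : 0 ≤ C) {μ : Measure ℝ} [IsProbabilityMeasure μ]
    (hμ : ∀ᵐ x ∂μ, x ∈ Set.Icc 0 C) {lam : ∀ N, Fin N → ℝ}
    (hb : ∀ᶠ N in atTop, ∀ i, lam N i ∈ Set.Icc 0 C)
    (hres : ∀ n : ℕ, Tendsto (fun N => (∑ i, (lam N i + (n + 1 : ℝ))⁻¹) / (N : ℝ)) atTop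
      (𝓝 (∫ x, (x + (n + 1 : ℝ))⁻¹ ∂μ))) (j : ℕ) :
    Tendsto (fun N => (∑ i, lam N i ^ j) / (N : ℝ)) atTop (𝓝 (∫ x, x ^ j ∂μ)) := by
  induction j using Nat.strong_induction_on with
  | _ j ih =>
    rw [Metric.tendsto_atTop]
    intro ε hε
    obtain ⟨n, hn⟩ := exists_nat_gt (4 * C ^ (j + 1) / ε)
    set s : ℝ := (n : ℝ) + 1
    have hs : 0 < s := by positivity
    have hsC : C ^ (j + 1) / s ≤ ε / 4 := by
      rw [div_le_iff₀ hs]
      rw [div_lt_iff₀ hε] at hn
      simp only [s]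
      linarith
    set c : ℝ := (-1) ^ j * s ^ (j + 1)
    have hE : ∀ x ∈ Set.Icc 0 C,
        x ^ (j + 1) / (x + s) ∈ Set.Icc 0 (C ^ (j + 1) / s) := fun x hx => by
      have := hx.1
      refine ⟨by positivity, ?_⟩
      exact div_le_div₀ (by positivity) (pow_le_pow_left₀ hx.1 hx.2 _) hs (by linarith)
    -- the identity for the limit law
    have hpow : ∀ i : ℕ, Integrable (fun x => x ^ i) μ := fun i =>
      Integrable.of_bound (by fun_prop) (C ^ i) (hμ.mono fun x hx => by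
        rw [norm_pow, Real.norm_eq_abs, abs_of_nonneg hx.1]
        exact pow_le_pow_left₀ hx.1 hx.2 i)
    have hinv : Integrable (fun x => (x + s)⁻¹) μ :=
      Integrable.of_bound (by fun_prop) (1 / s) (hμ.mono fun x hx => by
        rw [Real.norm_eq_abs, abs_of_nonneg (by have := hx.1; positivity), one_div]
        exact inv_anti₀ hs (by linarith [hx.1]))
    have hErr : Integrable (fun x => x ^ (j + 1) / (x + s)) μ :=
      Integrable.of_bound ((by fun_prop : Measurable fun x : ℝ =>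
          x ^ (j + 1) / (x + s))).aestronglyMeasurable (C ^ (j + 1) / s) (hμ.mono fun x hx => by
        rw [Real.norm_eq_abs, abs_of_nonneg (hE x hx).1]; exact (hE x hx).2)
    have hsum : Integrable (fun x => ∑ i ∈ Finset.range j, (-1) ^ i / s ^ (i + 1) * x ^ i) μ :=
      integrable_finsetSum _ fun i _ => (hpow i).const_mul _
    have hlim : ∫ x, x ^ j ∂μ = c * ((∫ x, (x + s)⁻¹ ∂μ) -
          ∑ i ∈ Finset.range j, (-1) ^ i / s ^ (i + 1) * ∫ x, x ^ i ∂μ) +
        ∫ x, x ^ (j + 1) / (x + s) ∂μ := by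
      rw [integral_congr_ae (hμ.mono fun x hx =>
          resolvent_expansion (x := x) (s := s) (by linarith [hx.1]) hs.ne' j :
        (fun x => x ^ j) =ᵐ[μ] _),
        integral_add ((hinv.sub' hsum).const_mul _) hErr, integral_const_mul,
        integral_sub hinv hsum, integral_finsetSum _ fun i _ => (hpow i).const_mul _]
      simp only [integral_const_mul, c]
    have hErr0 : ∫ x, x ^ (j + 1) / (x + s) ∂μ ∈ Set.Icc 0 (C ^ (j + 1) / s) :=
      ⟨integral_nonneg_of_ae (hμ.mono fun x hx => (hE x hx).1),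
        (integral_mono_ae hErr (integrable_const _) (hμ.mono fun x hx => (hE x hx).2)).trans
          (by simp)⟩
    -- the main part converges
    have hmain : Tendsto (fun N => c * ((∑ i, (lam N i + s)⁻¹) / (N : ℝ) -
        ∑ i ∈ Finset.range j, (-1) ^ i / s ^ (i + 1) * ((∑ l, lam N l ^ i) / (N : ℝ))))
        atTop (𝓝 (c * ((∫ x, (x + s)⁻¹ ∂μ) -
          ∑ i ∈ Finset.range j, (-1) ^ i / s ^ (i + 1) * ∫ x, x ^ i ∂μ))) :=
      ((hres n).sub (tendsto_finsetSum _ fun i hi =>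
        (ih i (Finset.mem_range.1 hi)).const_mul _)).const_mul c
    obtain ⟨N₁, hN₁⟩ := Metric.tendsto_atTop.1 hmain (ε / 2) (by linarith)
    obtain ⟨N₂, hN₂⟩ := eventually_atTop.1 hb
    refine ⟨max (max N₁ N₂) 1, fun N hN => ?_⟩
    have hN' : (0 : ℝ) < N := Nat.cast_pos.2 (le_trans (le_max_right _ _) hN)
    have hbN := hN₂ N (le_trans (le_trans (le_max_right _ _) (le_max_left _ _)) hN)
    have h1 := hN₁ N (le_trans (le_trans (le_max_left _ _) (le_max_left _ _)) hN)
    rw [Real.dist_eq] at h1 ⊢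
    have e : (∑ i, lam N i ^ j) / (N : ℝ) = c * ((∑ i, (lam N i + s)⁻¹) / (N : ℝ) -
        ∑ i ∈ Finset.range j, (-1) ^ i / s ^ (i + 1) * ((∑ l, lam N l ^ i) / (N : ℝ))) +
        (∑ i, lam N i ^ (j + 1) / (lam N i + s)) / (N : ℝ) := by
      conv_lhs =>
        rw [Finset.sum_congr rfl fun i _ => resolvent_expansion (x := lam N i) (s := s)
          (by linarith [(hbN i).1]) hs.ne' j]
      rw [Finset.sum_add_distrib, ← Finset.mul_sum, Finset.sum_sub_distrib, Finset.sum_comm,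
        add_div, mul_div_assoc, sub_div, Finset.sum_div _ _ (N : ℝ)]
      rw [Finset.sum_div (Finset.range j)]
      simp only [← Finset.mul_sum, ← Finset.sum_div, mul_div_assoc, c]
    have h2 : (∑ i, lam N i ^ (j + 1) / (lam N i + s)) / (N : ℝ) ∈
        Set.Icc 0 (C ^ (j + 1) / s) := by
      refine ⟨div_nonneg (Finset.sum_nonneg fun i _ => (hE _ (hbN i)).1) hN'.le, ?_⟩
      rw [div_le_iff₀ hN']
      refine (Finset.sum_le_sum fun i _ => (hE _ (hbN i)).2).trans (le_of_eq ?_)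
      simp [mul_comm]
    rw [e, hlim]
    obtain ⟨a1, a2⟩ := h2
    obtain ⟨b1, b2⟩ := hErr0
    rw [abs_lt] at h1 ⊢
    constructor <;> linarith

theorem weak : WeakStmt := by
  rintro α C μ ⟨hprob, hcomp, hnn, hst⟩ lam hb hres f
  obtain ⟨R, hR⟩ := hcomp.bddAbove
  set C' := max (max C R) 0
  have hC' : 0 ≤ C' := le_max_right _ _
  have hμ : ∀ᵐ x ∂μ, x ∈ Set.Icc 0 C' := by
    filter_upwards [Measure.support_mem_ae (μ := μ)] with x hx
    exact ⟨hnn hx, ((hR hx).trans (le_max_right _ _)).trans (le_max_left _ _)⟩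
  have hb' : ∀ᶠ N in atTop, ∀ i, lam N i ∈ Set.Icc 0 C' := hb.mono fun N h i =>
    ⟨(h i).1, ((h i).2.trans (le_max_left _ _)).trans (le_max_left _ _)⟩
  have hres' : ∀ n : ℕ, Tendsto (fun N => (∑ i, (lam N i + (n + 1 : ℝ))⁻¹) / (N : ℝ)) atTop
      (𝓝 (∫ x, (x + (n + 1 : ℝ))⁻¹ ∂μ)) := fun n => by
    rw [hst _ (by positivity)]; exact hres n
  rw [Metric.tendsto_atTop]
  intro ε hε
  obtain ⟨p, hp⟩ := exists_polynomial_near_of_continuousOn 0 C' f f.continuous.continuousOn (ε / 4)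
    (by linarith)
  have hpi : Integrable (fun x => p.eval x) μ := by
    obtain ⟨B, hB⟩ := (isCompact_Icc (a := (0 : ℝ)) (b := C')).exists_bound_of_continuousOn
      p.continuous.continuousOn
    exact Integrable.of_bound p.continuous.aestronglyMeasurable B (hμ.mono fun x hx => hB x hx)
  have hpw : ∀ i : ℕ, Integrable (fun x => x ^ i) μ := fun i =>
    Integrable.of_bound (by fun_prop) (C' ^ i) (hμ.mono fun x hx => by
      rw [norm_pow, Real.norm_eq_abs, abs_of_nonneg hx.1]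
      exact pow_le_pow_left₀ hx.1 hx.2 i)
  have hplim : Tendsto (fun N => (∑ i, p.eval (lam N i)) / (N : ℝ)) atTop
      (𝓝 (∫ x, p.eval x ∂μ)) := by
    have e : ∀ N : ℕ, (∑ i, p.eval (lam N i)) / (N : ℝ) =
        ∑ l ∈ Finset.range (p.natDegree + 1), p.coeff l * ((∑ i, lam N i ^ l) / (N : ℝ)) :=
      fun N => by
        simp only [Polynomial.eval_eq_sum_range]
        rw [Finset.sum_comm, Finset.sum_div]
        exact Finset.sum_congr rfl fun l _ => by rw [← Finset.mul_sum, mul_div_assoc]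
    rw [show (fun N : ℕ => (∑ i, p.eval (lam N i)) / (N : ℝ)) = _ from funext e]
    simp only [Polynomial.eval_eq_sum_range]
    rw [integral_finsetSum _ fun l _ => (hpw l).const_mul _]
    simp only [integral_const_mul]
    exact tendsto_finsetSum _ fun l _ => (tendsto_moment hC' hμ hb' hres' l).const_mul _
  have hfd : |(∫ x, f x ∂μ) - ∫ x, p.eval x ∂μ| ≤ ε / 4 := by
    rw [← integral_sub (f.integrable μ) hpi]
    refine abs_integral_le_integral_abs.trans ((integral_mono_ae ((f.integrable μ).sub hpi).abs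
      (integrable_const (ε / 4)) (hμ.mono fun x hx => ?_)).trans (by simp))
    simp only [Pi.sub_apply]
    rw [abs_sub_comm]
    exact (hp x hx).le
  obtain ⟨N₁, hN₁⟩ := Metric.tendsto_atTop.1 hplim (ε / 4) (by linarith)
  obtain ⟨N₂, hN₂⟩ := eventually_atTop.1 hb'
  refine ⟨max (max N₁ N₂) 1, fun N hN => ?_⟩
  have hN' : (0 : ℝ) < N := Nat.cast_pos.2 (le_trans (le_max_right _ _) hN)
  have hbN := hN₂ N (le_trans (le_trans (le_max_right _ _) (le_max_left _ _)) hN)
  have h1 := hN₁ N (le_trans (le_trans (le_max_left _ _) (le_max_left _ _)) hN)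
  rw [Real.dist_eq] at h1 ⊢
  have h2 : |(∑ i, f (lam N i)) / (N : ℝ) - (∑ i, p.eval (lam N i)) / (N : ℝ)| ≤ ε / 4 := by
    rw [← sub_div, ← Finset.sum_sub_distrib, abs_div, abs_of_pos hN', div_le_iff₀ hN']
    refine (Finset.abs_sum_le_sum_abs _ _).trans ((Finset.sum_le_sum fun i _ =>
      (?_ : _ ≤ ε / 4)).trans (le_of_eq ?_))
    · rw [abs_sub_comm]; exact (hp _ (hbN i)).le
    · simp [mul_comm]
  rw [abs_le] at hfd h2
  rw [abs_lt] at h1 ⊢
  constructor <;> linarith

end Vale.Agent.P166.NW.Spec
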