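import Mathlib
import Vale.Agent.P166.NW.Spec.EsdLOO
import Vale.Agent.P166.NW.Spec.EsdWeak

/-!
The resolvent trace converges, and the Marchenko–Pastur law exists.
-/

noncomputable section

open MeasureTheory ProbabilityTheory Filter
open scoped Topology

namespace Vale.Agent.P166.NW.Spec

open Vale.Agent.P157 (gam patterns)

variable {M N : ℕ}

lemma mpStieltjes_spec (α : ℝ) {s : ℝ} (hs : 0 < s) :
    0 < mpStieltjes α s ∧
      s * mpStieltjes α s ^ 2 + (s + α - 1) * mpStieltjes α s - 1 = 0 := by
  unfold mpStieltjes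
  set b := s + α - 1
  have hd : 0 < b ^ 2 + 4 * s := by positivity
  have hsq := Real.sq_sqrt hd.le
  set r := Real.sqrt (b ^ 2 + 4 * s)
  refine ⟨div_pos (sub_pos.2 ?_) (by linarith), ?_⟩
  · exact lt_of_le_of_lt (le_abs_self b)
      ((Real.lt_sqrt (abs_nonneg _)).2 (by rw [sq_abs]; linarith))
  · field_simp
    linear_combination hsq

/-- A number almost solving the equation is almost the root. -/
lemma root_stable (α : ℝ) {s T : ℝ} (hs : 0 < s) (hT : 0 ≤ T) :
    |T - mpStieltjes α s| ≤ mpStieltjes α s * |s * T ^ 2 + (s + α - 1) * T - 1| := by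
  obtain ⟨hg, heq⟩ := mpStieltjes_spec α hs
  set g := mpStieltjes α s
  have e : s * T ^ 2 + (s + α - 1) * T - 1 = (T - g) * (s * T + g⁻¹) := by
    have e1 : s * g + (s + α - 1) = g⁻¹ := by
      rw [eq_comm, inv_eq_iff_eq_inv, ← mul_right_inj' (show s * g + (s + α - 1) ≠ 0 by
        intro h; have := congrArg (g * ·) h; simp only [mul_zero] at this; linarith), mul_inv_cancel₀]
      · linear_combination heq
      · intro h; have := congrArg (g * ·) h; simp only [mul_zero] at this; linarith
    rw [← e1]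
    linear_combination heq
  rw [e, abs_mul, abs_of_pos (show 0 < s * T + g⁻¹ by positivity)]
  calc |T - g| = |T - g| * (g * g⁻¹) := by rw [mul_inv_cancel₀ hg.ne', mul_one]
    _ ≤ |T - g| * (g * (s * T + g⁻¹)) := by
        refine mul_le_mul_of_nonneg_left (mul_le_mul_of_nonneg_left ?_ hg.le) (abs_nonneg _)
        have : 0 ≤ s * T := by positivity
        linarith
    _ = g * (|T - g| * (s * T + g⁻¹)) := by ring

lemma integral_abs_tr1_sub_le {s : ℝ} (hs : 0 < s) (hN : 0 < N) (α : ℝ) :
    Integrable (fun g => |tr1 s g - mpStieltjes α s|) (patterns M N) ∧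
    ∫ g, |tr1 s g - mpStieltjes α s| ∂patterns M N ≤ mpStieltjes α s *
      ((1 + 1 / s) * ((M : ℝ) / N * ((Real.sqrt (N * sqVar) + 1) / (s * N))) +
        |α - (M : ℝ) / N| * (1 / s)) := by
  have : IsProbabilityMeasure (patterns M N) := by unfold patterns; infer_instance
  obtain ⟨hg, -⟩ := mpStieltjes_spec α hs
  set g0 := mpStieltjes α s
  have ht := continuous_tr1 (M := M) (N := N) hs
  have hp : Continuous fun g : Fin M → Fin N → ℝ => phi1 (tr1 s g) :=
    ht.div (continuous_const.add ht) fun g =>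
      ne_of_gt (show 0 < 1 + tr1 s g by linarith [(tr1_mem hs g).1])
  have hφ : ∀ g : Fin M → Fin N → ℝ, |phi1 (tr1 s g)| ≤ 1 := fun g => by
    rw [abs_of_nonneg (phi1_mem (tr1_mem hs g).1).1]; exact (phi1_mem (tr1_mem hs g).1).2
  have hi0 : Integrable (fun g : Fin M → Fin N → ℝ =>
      |1 - s * tr1 s g - (M : ℝ) / N * phi1 (tr1 s g)|) (patterns M N) := by
    refine Integrable.of_bound
      (((continuous_const.sub (continuous_const.mul ht)).sub
        (continuous_const.mul hp)).abs).aestronglyMeasurable (2 + (M : ℝ) / N)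
      (Eventually.of_forall fun g => ?_)
    rw [Real.norm_eq_abs, abs_abs]
    have h1 := tr1_mem hs g
    have h2 := phi1_mem h1.1
    have h3 : s * tr1 s g ≤ 1 := by
      have := h1.2; rw [le_div_iff₀ hs] at this; linarith
    have h4 : (M : ℝ) / N * phi1 (tr1 s g) ≤ (M : ℝ) / N :=
      mul_le_of_le_one_right (by positivity) h2.2
    have h5 : 0 ≤ (M : ℝ) / N * phi1 (tr1 s g) := mul_nonneg (by positivity) h2.1
    have h6 : 0 ≤ s * tr1 s g := mul_nonneg hs.le h1.1
    rw [abs_le]
    constructor <;> linarith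
  have hi : Integrable (fun g : Fin M → Fin N → ℝ => |tr1 s g - g0|) (patterns M N) :=
    Integrable.of_bound (ht.sub continuous_const).abs.aestronglyMeasurable (1 / s + g0)
      (Eventually.of_forall fun g => by
        rw [Real.norm_eq_abs, abs_abs, abs_le]
        constructor <;> linarith [(tr1_mem hs g).1, (tr1_mem hs g).2, one_div_pos.2 hs])
  refine ⟨hi, ?_⟩
  have hbd : ∀ g : Fin M → Fin N → ℝ, |tr1 s g - g0| ≤ g0 *
      ((1 + 1 / s) * |1 - s * tr1 s g - (M : ℝ) / N * phi1 (tr1 s g)| +
        |α - (M : ℝ) / N| * (1 / s)) := fun g => by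
    obtain ⟨hT, hT'⟩ := tr1_mem hs g
    refine (root_stable α hs hT).trans (mul_le_mul_of_nonneg_left ?_ hg.le)
    set T := tr1 s g
    have e : s * T ^ 2 + (s + α - 1) * T - 1 =
        -((1 + T) * (1 - s * T - (M : ℝ) / N * phi1 T)) + (α - (M : ℝ) / N) * T := by
      have : (1 + T) * phi1 T = T := by
        unfold phi1; field_simp
      linear_combination -((M : ℝ) / N) * this
    rw [e]
    refine (abs_add_le _ _).trans (add_le_add ?_ ?_)
    · rw [abs_neg, abs_mul, abs_of_pos (show 0 < 1 + T by linarith)]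
      exact mul_le_mul_of_nonneg_right (by linarith) (abs_nonneg _)
    · rw [abs_mul, abs_of_nonneg hT]
      exact mul_le_mul_of_nonneg_left hT' (abs_nonneg _)
  refine (integral_mono hi (((hi0.const_mul _).fun_add (integrable_const _)).const_mul g0)
    hbd).trans ?_
  rw [integral_const_mul, integral_add (hi0.const_mul _) (integrable_const _), integral_const_mul]
  simp only [integral_const, probReal_univ, smul_eq_mul, one_mul]
  refine mul_le_mul_of_nonneg_left (add_le_add (mul_le_mul_of_nonneg_left (tr1_equation hs hN) ?_)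
    le_rfl) hg.le
  positivity

theorem resolvent : ResolventStmt := by
  intro α hα s hs δ hδ
  set g0 := mpStieltjes α s
  have ha : Tendsto (fun N : ℕ => (⌊α * N⌋₊ : ℝ) / N) atTop (𝓝 α) :=
    (tendsto_nat_floor_mul_div_atTop hα.le).comp tendsto_natCast_atTop_atTop
  have hb : Tendsto (fun N : ℕ => (Real.sqrt (N * sqVar) + 1) / (s * N)) atTop (𝓝 0) := by
    have h1 : Tendsto (fun N : ℕ => Real.sqrt sqVar / s / Real.sqrt N + 1 / s / N) atTop (𝓝 0) := by
      have a := (Real.tendsto_sqrt_atTop.comp tendsto_natCast_atTop_atTop).const_div_atTop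
        (Real.sqrt sqVar / s)
      have b := (tendsto_natCast_atTop_atTop (R := ℝ)).const_div_atTop (1 / s)
      simpa using a.add b
    refine h1.congr' ?_
    filter_upwards [eventually_gt_atTop 0] with N hN
    have hN' : (0 : ℝ) < N := Nat.cast_pos.2 hN
    rw [Real.sqrt_mul hN'.le, add_div]
    congr 1
    · field_simp
      rw [Real.sq_sqrt hN'.le]
    · field_simp
  have hlim : Tendsto (fun N : ℕ => g0 * ((1 + 1 / s) * ((⌊α * N⌋₊ : ℝ) / N *
      ((Real.sqrt (N * sqVar) + 1) / (s * N))) + |α - (⌊α * N⌋₊ : ℝ) / N| * (1 / s)) / δ)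
      atTop (𝓝 0) := by
    have := ((((ha.mul hb).const_mul (1 + 1 / s)).add
      (((tendsto_const_nhds (x := α)).sub ha).abs.mul_const (1 / s))).const_mul g0).div_const δ
    simpa using this
  refine squeeze_zero' (Eventually.of_forall fun N => measureReal_nonneg) ?_ hlim
  filter_upwards [eventually_gt_atTop 0] with N hN
  have : IsProbabilityMeasure (patterns ⌊α * N⌋₊ N) := by unfold patterns; infer_instance
  obtain ⟨hi, hle⟩ := integral_abs_tr1_sub_le (M := ⌊α * N⌋₊) hs hN α
  have hmk := mul_meas_ge_le_integral_of_nonneg (μ := patterns ⌊α * N⌋₊ N)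
    (f := fun g => |tr1 s g - g0|) (Eventually.of_forall fun g => abs_nonneg _) hi δ
  have hsub : {g : Fin ⌊α * N⌋₊ → Fin N → ℝ |
      δ < |(∑ i, (specVals g i + s)⁻¹) / N - mpStieltjes α s|} ⊆
      {g | δ ≤ |tr1 s g - g0|} := fun g hg => by
    simp only [Set.mem_setOf_eq] at hg ⊢
    rw [tr1_eq hs]
    exact hg.le
  refine (measureReal_mono hsub).trans ?_
  rw [le_div_iff₀ hδ, mul_comm]
  exact hmk.trans hle

/-- Positive rationals as a doubly indexed sequence. -/
def sAt (p : ℕ × ℕ) : ℝ := ((p.1 : ℝ) + 1) / ((p.2 : ℝ) + 1)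

theorem exists_mp (hN : NormStmt) : ExistsStmt := by
  intro α hα
  obtain ⟨C₀, hC₀⟩ := hN α hα
  set C := max C₀ 0
  have hC : 0 ≤ C := le_max_right _ _
  have hs : ∀ p, 0 < sAt p := fun p => by unfold sAt; positivity
  -- good draws
  have key : ∀ k : ℕ, ∃ N : ℕ, 0 < N ∧ ∃ g : Fin ⌊α * N⌋₊ → Fin N → ℝ,
      (∀ i, specVals g i ≤ C₀) ∧ ∀ p ∈ Finset.range (k + 1) ×ˢ Finset.range (k + 1),
        |(∑ i, (specVals g i + sAt p)⁻¹) / N - mpStieltjes α (sAt p)| ≤ 1 / ((k : ℝ) + 1) := by
    intro k
    set P := Finset.range (k + 1) ×ˢ Finset.range (k + 1)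
    have hlim := hC₀.add (tendsto_finsetSum P fun p _ =>
      resolvent α hα (sAt p) (hs p) (1 / ((k : ℝ) + 1)) (by positivity))
    simp only [Finset.sum_const_zero, add_zero] at hlim
    obtain ⟨N, hN1, hNlt⟩ := ((eventually_gt_atTop 0).and
      (hlim.eventually_lt_const zero_lt_one)).exists
    refine ⟨N, hN1, ?_⟩
    by_contra hno
    push Not at hno
    have : IsProbabilityMeasure (patterns ⌊α * N⌋₊ N) := by unfold patterns; infer_instance
    have hcov : (Set.univ : Set (Fin ⌊α * N⌋₊ → Fin N → ℝ)) ⊆ {g | ∃ i, C₀ < specVals g i} ∪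
        ⋃ p ∈ P, {g | 1 / ((k : ℝ) + 1) <
          |(∑ i, (specVals g i + sAt p)⁻¹) / N - mpStieltjes α (sAt p)|} := fun g _ => by
      by_cases h : ∀ i, specVals g i ≤ C₀
      · obtain ⟨p, hp, hp'⟩ := hno g h
        exact Or.inr (Set.mem_biUnion hp hp')
      · push Not at h
        exact Or.inl h
    have h1 := (measureReal_mono (μ := patterns ⌊α * N⌋₊ N) hcov).trans
      ((measureReal_union_le _ _).trans (add_le_add le_rfl (measureReal_biUnion_finset_le P _)))
    rw [probReal_univ] at h1
    linarith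
  choose Nk hNk gk hgC hgR using key
  -- a limit of the empirical laws
  let Icc' := ↥(Set.Icc (0 : ℝ) C)
  set x : ∀ k, Fin (Nk k) → Icc' := fun k i => Set.projIcc 0 C hC (specVals (gk k) i)
  have hx : ∀ k i, ((x k i : Icc') : ℝ) = specVals (gk k) i := fun k i => by
    have h0 : 0 ≤ specVals (gk k) i := (gram_posSemidef (gk k)).eigenvalues_nonneg i
    simp only [x, Set.projIcc_of_mem hC
      ⟨h0, (hgC k i).trans (le_max_left _ _)⟩]
  set m : ℕ → Measure Icc' := fun k =>
    ∑ i, ENNReal.ofReal (1 / (Nk k : ℝ)) • Measure.dirac (x k i)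
  have hm : ∀ k, IsProbabilityMeasure (m k) := fun k => ⟨by
    have hk : (0 : ℝ) < Nk k := Nat.cast_pos.2 (hNk k)
    simp only [m, Measure.coe_finsetSum, Finset.sum_apply, Measure.smul_apply, smul_eq_mul,
      measure_univ, mul_one, Finset.sum_const, Finset.card_univ, Fintype.card_fin, nsmul_eq_mul]
    rw [← ENNReal.ofReal_natCast, ← ENNReal.ofReal_mul hk.le, mul_one_div_cancel hk.ne',
      ENNReal.ofReal_one]⟩
  set P : ℕ → ProbabilityMeasure Icc' := fun k => ⟨m k, hm k⟩
  set U : Ultrafilter ℕ := Ultrafilter.of atTop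
  obtain ⟨ν, -, hν⟩ := isCompact_univ.ultrafilter_le_nhds (U.map P) (by simp [Ultrafilter.coe_map])
  refine ⟨(ν : Measure Icc').map Subtype.val, ?_⟩
  have hprob : IsProbabilityMeasure ((ν : Measure Icc').map Subtype.val) :=
    Measure.isProbabilityMeasure_map measurable_subtype_coe.aemeasurable
  have hae : Set.Icc (0 : ℝ) C ∈ ae ((ν : Measure Icc').map Subtype.val) := by
    rw [mem_ae_map_iff measurable_subtype_coe.aemeasurable measurableSet_Icc]
    exact Eventually.of_forall fun z : Icc' => z.2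
  have hsupp := Measure.support_subset_of_isClosed isClosed_Icc hae
  refine ⟨hprob, isCompact_Icc.of_isClosed_subset Measure.isClosed_support hsupp,
    fun y hy => (hsupp hy).1, ?_⟩
  -- the transform at rational points
  have hrat : ∀ p, ∫ y, (y + sAt p)⁻¹ ∂((ν : Measure Icc').map Subtype.val) =
      mpStieltjes α (sAt p) := by
    intro p
    rw [integral_map measurable_subtype_coe.aemeasurable (by fun_prop)]
    let F : BoundedContinuousFunction Icc' ℝ := BoundedContinuousFunction.mkOfCompact
      ⟨fun z => ((z : ℝ) + sAt p)⁻¹, (continuous_subtype_val.add continuous_const).inv₀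
        fun z => ne_of_gt (add_pos_of_nonneg_of_pos z.2.1 (hs p))⟩
    have h1 : Tendsto (fun k => ∫ z, F z ∂(m k)) (U : Filter ℕ) (𝓝 (∫ z, F z ∂(ν : Measure Icc'))) :=
      (ProbabilityMeasure.tendsto_iff_forall_integral_tendsto.1
        (show Tendsto P (U : Filter ℕ) (𝓝 ν) from hν)) F
    have hval : ∀ k, ∫ z, F z ∂(m k) = (∑ i, (specVals (gk k) i + sAt p)⁻¹) / (Nk k : ℝ) := by
      intro k
      simp only [m]
      rw [integral_finsetSum_measure fun i _ =>
        (F.integrable (Measure.dirac (x k i))).smul_measure ENNReal.ofReal_ne_top, Finset.sum_div]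
      refine Finset.sum_congr rfl fun i _ => ?_
      rw [integral_smul_measure, integral_dirac, ENNReal.toReal_ofReal (by positivity)]
      simp only [F, BoundedContinuousFunction.mkOfCompact_apply, ContinuousMap.coe_mk, hx,
        smul_eq_mul]
      ring
    have h2 : Tendsto (fun k => ∫ z, F z ∂(m k)) atTop (𝓝 (mpStieltjes α (sAt p))) := by
      simp only [hval]
      rw [tendsto_iff_norm_sub_tendsto_zero]
      refine squeeze_zero' (Eventually.of_forall fun _ => norm_nonneg _) ?_
        tendsto_one_div_add_atTop_nhds_zero_nat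
      filter_upwards [eventually_ge_atTop (p.1 + p.2)] with k hk
      exact hgR k p (Finset.mem_product.2 ⟨Finset.mem_range.2 (by omega),
        Finset.mem_range.2 (by omega)⟩)
    have := tendsto_nhds_unique h1 (h2.mono_left (Ultrafilter.of_le atTop))
    simpa [F] using this
  -- continuity
  intro s hs0
  set μ := (ν : Measure Icc').map Subtype.val
  set q : ℕ → ℕ × ℕ := fun b => (⌊s * ((b : ℝ) + 1)⌋₊, b)
  have hq : Tendsto (fun b => sAt (q b)) atTop (𝓝 s) := by
    have h2 : Tendsto (fun b : ℕ => s + 1 / ((b : ℝ) + 1)) atTop (𝓝 s) := by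
      simpa using (tendsto_const_nhds (x := s)).add tendsto_one_div_add_atTop_nhds_zero_nat
    refine tendsto_of_tendsto_of_tendsto_of_le_of_le tendsto_const_nhds h2 (fun b => ?_) fun b => ?_
    · simp only [sAt, q]
      rw [le_div_iff₀ (by positivity)]
      exact (Nat.lt_floor_add_one _).le
    · simp only [sAt, q]
      rw [div_le_iff₀ (by positivity), add_mul, div_mul_cancel₀ _ (by positivity)]
      linarith [Nat.floor_le (show 0 ≤ s * ((b : ℝ) + 1) by positivity)]
  have hcl : ContinuousAt (fun u => ∫ y, (y + u)⁻¹ ∂μ) s := by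
    have hy : ∀ᵐ y ∂μ, 0 ≤ y := Filter.mem_of_superset hae fun y hy => hy.1
    refine continuousAt_of_dominated (bound := fun _ => 2 / s) ?_ ?_ (integrable_const _) ?_
    · exact Eventually.of_forall fun u =>
        (by fun_prop : Measurable fun y : ℝ => (y + u)⁻¹).aestronglyMeasurable
    · filter_upwards [Ioi_mem_nhds (show s / 2 < s by linarith)] with u hu
      filter_upwards [hy] with y hy
      simp only [Set.mem_Ioi] at hu
      rw [Real.norm_eq_abs, abs_of_nonneg (inv_nonneg.2 (by linarith)),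
        show 2 / s = (s / 2)⁻¹ by rw [inv_div]]
      exact inv_anti₀ (by linarith) (by linarith)
    · filter_upwards [hy] with y hy
      exact (continuousAt_const.add continuousAt_id).inv₀ (ne_of_gt (add_pos_of_nonneg_of_pos hy hs0))
  have hcr : ContinuousAt (mpStieltjes α) s := by
    refine ContinuousAt.div (Continuous.continuousAt (by fun_prop)) (Continuous.continuousAt (by fun_prop)) ?_
    simp [hs0.ne']
  refine tendsto_nhds_unique ((hcl.tendsto.comp hq).congr fun b => ?_) (hcr.tendsto.comp hq)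
  exact hrat (q b)

end Vale.Agent.P166.NW.Spec
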