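import Vale.Agent.P166.Wishart.Heat

/-!
Gordon's comparison for Gaussian bilinear forms on finite sets of directions, through a soft
min-max.
-/

noncomputable section

open MeasureTheory ProbabilityTheory Set
open scoped BigOperators

namespace Vale.Agent.P166.NW.Spec

open Vale.Agent.P166.Wishart (HD heat fld cu covDiff)
open Vale.Agent.P146 (PolyBd gauss)

variable {A B : Type*} [Fintype A] [Fintype B] {b : ℝ}

/-- The inner partition function. -/
def innerZ (b : ℝ) (a : A) (x : A × B → ℝ) : ℝ := ∑ β, Real.exp (b * x (a, β))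

/-- The outer partition function. -/
def outerZ (b : ℝ) (x : A × B → ℝ) : ℝ := ∑ a, (innerZ b a x)⁻¹

/-- The soft minimum over `A` of the soft maximum over `B`. -/
def softMM (b : ℝ) (x : A × B → ℝ) : ℝ := -Real.log (outerZ b x) / b

/-- The conditional weight of an entry. -/
def innerW (b : ℝ) (i : A × B) (x : A × B → ℝ) : ℝ := Real.exp (b * x i) / innerZ b i.1 x

/-- The first derivative of `softMM`. -/
def softD1 (b : ℝ) (i : A × B) (x : A × B → ℝ) : ℝ :=
  Real.exp (b * x i) / (innerZ b i.1 x ^ 2 * outerZ b x)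

open Classical in
/-- The second derivative of `softMM`. -/
def softD2 (b : ℝ) (i j : A × B) (x : A × B → ℝ) : ℝ :=
  b * ((if i = j then softD1 b i x else 0) - (if i.1 = j.1 then 2 * softD1 b i x * innerW b j x else 0) +
    softD1 b i x * softD1 b j x)

variable [Nonempty A] [Nonempty B]

omit [Fintype A] [Nonempty A] in
lemma innerZ_pos (a : A) (x : A × B → ℝ) : 0 < innerZ b a x :=
  Finset.sum_pos (fun _ _ => Real.exp_pos _) Finset.univ_nonempty

lemma outerZ_pos (x : A × B → ℝ) : 0 < outerZ b x :=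
  Finset.sum_pos (fun a _ => inv_pos.2 (innerZ_pos a x)) Finset.univ_nonempty

omit [Fintype A] [Nonempty A] in
lemma innerW_mem (i : A × B) (x : A × B → ℝ) : innerW b i x ∈ Icc (0 : ℝ) 1 :=
  ⟨(div_pos (Real.exp_pos _) (innerZ_pos _ _)).le, div_le_one_of_le₀
    (Finset.single_le_sum (f := fun β => Real.exp (b * x (i.1, β))) (fun _ _ => (Real.exp_pos _).le)
      (Finset.mem_univ i.2)) (innerZ_pos _ _).le⟩

lemma softD1_mem (i : A × B) (x : A × B → ℝ) :
    softD1 b i x ∈ Icc (0 : ℝ) (innerW b i x) := by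
  have hS := innerZ_pos (b := b) i.1 x
  refine ⟨(div_pos (Real.exp_pos _) (mul_pos (pow_pos hS 2) (outerZ_pos x))).le, ?_⟩
  refine div_le_div_of_nonneg_left (Real.exp_pos _).le hS ?_
  have h : (innerZ b i.1 x)⁻¹ ≤ outerZ b x :=
    Finset.single_le_sum (f := fun a => (innerZ b a x)⁻¹) (fun a _ => (inv_pos.2 (innerZ_pos a x)).le)
      (Finset.mem_univ _)
  calc innerZ b i.1 x = innerZ b i.1 x ^ 2 * (innerZ b i.1 x)⁻¹ := by field_simp
    _ ≤ _ := mul_le_mul_of_nonneg_left h (sq_nonneg _)

lemma abs_softD1_le (i : A × B) (x : A × B → ℝ) : |softD1 b i x| ≤ 1 := by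
  rw [abs_of_nonneg (softD1_mem i x).1]
  exact (softD1_mem i x).2.trans (innerW_mem i x).2

lemma abs_softD2_le (i j : A × B) (x : A × B → ℝ) : |softD2 b i j x| ≤ |b| * 4 := by
  obtain ⟨h1, h2⟩ := softD1_mem (b := b) i x
  obtain ⟨h3, h4⟩ := softD1_mem (b := b) j x
  obtain ⟨h5, h6⟩ := innerW_mem (b := b) j x
  have h7 := (innerW_mem (b := b) i x).2
  have : 0 ≤ softD1 b i x * innerW b j x := mul_nonneg h1 h5
  have : softD1 b i x * innerW b j x ≤ 1 := mul_le_one₀ (h2.trans h7) h5 h6
  have : 0 ≤ softD1 b i x * softD1 b j x := mul_nonneg h1 h3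
  have : softD1 b i x * softD1 b j x ≤ 1 := mul_le_one₀ (h2.trans h7) h3 (h4.trans h6)
  rw [softD2, abs_mul]
  refine mul_le_mul_of_nonneg_left (abs_le.2 ?_) (abs_nonneg _)
  split_ifs <;> constructor <;> linarith

lemma continuous_softMM : Continuous (softMM (A := A) (B := B) b) := by
  refine (Continuous.log ?_ fun x => (outerZ_pos x).ne').neg.div_const _
  exact continuous_finsetSum _ fun a _ =>
    Continuous.inv₀ (by unfold innerZ; fun_prop) fun x => (innerZ_pos a x).ne'

lemma continuous_softD1 (i : A × B) : Continuous (softD1 b i) := by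
  refine Continuous.div (by fun_prop) ?_ fun x =>
    (mul_pos (pow_pos (innerZ_pos _ x) 2) (outerZ_pos x)).ne'
  refine Continuous.mul (by unfold innerZ; fun_prop) ?_
  exact continuous_finsetSum _ fun a _ =>
    Continuous.inv₀ (by unfold innerZ; fun_prop) fun x => (innerZ_pos a x).ne'

lemma continuous_softD2 (i j : A × B) : Continuous (softD2 b i j) := by
  have hw : Continuous (innerW b j) :=
    Continuous.div (by fun_prop) (by unfold innerZ; fun_prop) fun x => (innerZ_pos _ x).ne'
  have := continuous_softD1 (b := b) i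
  have := continuous_softD1 (b := b) j
  unfold softD2
  split_ifs <;> fun_prop

omit [Fintype A] [Nonempty A] [Nonempty B] in
lemma hasDerivAt_innerZ (a : A) {c : ℝ → A × B → ℝ} {c' : A × B → ℝ} {t : ℝ}
    (hc : ∀ i, HasDerivAt (fun u => c u i) (c' i) t) :
    HasDerivAt (fun u => innerZ b a (c u))
      (b * ∑ β, Real.exp (b * c t (a, β)) * c' (a, β)) t := by
  rw [Finset.mul_sum]
  exact (HasDerivAt.fun_sum fun β _ => ((hc (a, β)).const_mul b).exp).congr_deriv
    (Finset.sum_congr rfl fun β _ => by ring)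

lemma hasDerivAt_outerZ {c : ℝ → A × B → ℝ} {c' : A × B → ℝ} {t : ℝ}
    (hc : ∀ i, HasDerivAt (fun u => c u i) (c' i) t) :
    HasDerivAt (fun u => outerZ b (c u))
      (-(b * outerZ b (c t) * ∑ j, softD1 b j (c t) * c' j)) t := by
  refine (HasDerivAt.fun_sum fun a _ =>
    (hasDerivAt_innerZ a hc).inv (innerZ_pos a (c t)).ne').congr_deriv ?_
  rw [Fintype.sum_prod_type, Finset.mul_sum, ← Finset.sum_neg_distrib]
  refine Finset.sum_congr rfl fun a _ => ?_
  simp only [softD1, Finset.mul_sum, neg_div, Finset.sum_div]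
  refine congrArg Neg.neg (Finset.sum_congr rfl fun β _ => ?_)
  have := (innerZ_pos (b := b) a (c t)).ne'
  have := (outerZ_pos (b := b) (c t)).ne'
  field_simp

lemma hd_softMM (hb : b ≠ 0) : HD (softMM (A := A) (B := B) b) (softD1 b) := by
  intro c c' t hc
  refine (((hasDerivAt_outerZ hc).log (outerZ_pos (c t)).ne').neg.div_const b).congr_deriv ?_
  have := (outerZ_pos (b := b) (c t)).ne'
  field_simp

open Classical in
lemma hd_softD1 (i : A × B) : HD (softD1 b i) (softD2 b i) := by
  intro c c' t hc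
  have h := ((hc i).const_mul b).exp.div
    (((hasDerivAt_innerZ (b := b) i.1 hc).pow 2).mul (hasDerivAt_outerZ (b := b) hc))
    (mul_pos (pow_pos (innerZ_pos i.1 (c t)) 2) (outerZ_pos (c t))).ne'
  refine h.congr_deriv ?_
  simp only [softD2, mul_add, mul_sub, add_mul, sub_mul, Finset.sum_add_distrib,
    Finset.sum_sub_distrib, mul_ite, ite_mul, mul_zero, zero_mul, Finset.sum_ite_eq,
    Finset.mem_univ, if_true]
  have e : ∀ F : A × B → ℝ, ∑ j, (if i.1 = j.1 then F j else 0) = ∑ β, F (i.1, β) := fun F => by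
    rw [Fintype.sum_prod_type, Finset.sum_eq_single i.1 (fun a _ ha => by simp [ha.symm])
      (fun h => absurd (Finset.mem_univ _) h)]
    simp
  rw [e]
  have e1 : ∑ β, b * (2 * softD1 b i (c t) * innerW b (i.1, β) (c t)) * c' (i.1, β) =
      b * (2 * softD1 b i (c t)) / innerZ b i.1 (c t) *
        ∑ β, Real.exp (b * c t (i.1, β)) * c' (i.1, β) := by
    rw [Finset.mul_sum]; refine Finset.sum_congr rfl fun β _ => ?_
    simp only [innerW]; ring
  have e2 : ∑ j, b * (softD1 b i (c t) * softD1 b j (c t)) * c' j =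
      b * softD1 b i (c t) * ∑ j, softD1 b j (c t) * c' j := by
    rw [Finset.mul_sum]; exact Finset.sum_congr rfl fun j _ => by ring
  rw [e1, e2]
  have := (innerZ_pos (b := b) i.1 (c t)).ne'
  have := (outerZ_pos (b := b) (c t)).ne'
  simp only [Pi.mul_apply, Pi.pow_apply, softD1]
  field_simp
  ring

lemma le_softMM (hb : 0 < b) {x : A × B → ℝ} {m : ℝ} (h : ∀ a, ∃ β, m ≤ x (a, β)) :
    m - Real.log (Fintype.card A) / b ≤ softMM b x := by
  have hc : (0 : ℝ) < Fintype.card A := by exact_mod_cast Fintype.card_pos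
  have hZ : outerZ b x ≤ Fintype.card A * Real.exp (-(b * m)) := by
    refine (Finset.sum_le_card_nsmul _ _ (Real.exp (-(b * m))) fun a _ => ?_).trans_eq
      (by simp [nsmul_eq_mul])
    obtain ⟨β, hβ⟩ := h a
    rw [Real.exp_neg]
    refine inv_anti₀ (Real.exp_pos _) ((Real.exp_le_exp.2 (mul_le_mul_of_nonneg_left hβ hb.le)).trans ?_)
    exact Finset.single_le_sum (f := fun β => Real.exp (b * x (a, β)))
      (fun _ _ => (Real.exp_pos _).le) (Finset.mem_univ β)
  have hl := Real.log_le_log (outerZ_pos x) hZ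
  rw [Real.log_mul hc.ne' (Real.exp_pos _).ne', Real.log_exp] at hl
  rw [softMM, le_div_iff₀ hb, sub_mul, div_mul_cancel₀ _ hb.ne']
  linarith

omit [Nonempty A] in
lemma softMM_le (hb : 0 < b) {x : A × B → ℝ} {m : ℝ} {a : A} (h : ∀ β, x (a, β) ≤ m) :
    softMM b x ≤ m + Real.log (Fintype.card B) / b := by
  have hc : (0 : ℝ) < Fintype.card B := by exact_mod_cast Fintype.card_pos
  have hS : innerZ b a x ≤ Fintype.card B * Real.exp (b * m) :=
    (Finset.sum_le_card_nsmul _ _ _ fun β _ =>
      Real.exp_le_exp.2 (mul_le_mul_of_nonneg_left (h β) hb.le)).trans_eq (by simp [nsmul_eq_mul])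
  have : Nonempty A := ⟨a⟩
  have hZ : (Fintype.card B * Real.exp (b * m))⁻¹ ≤ outerZ b x :=
    (inv_anti₀ (innerZ_pos a x) hS).trans
      (Finset.single_le_sum (f := fun a => (innerZ b a x)⁻¹)
        (fun a _ => (inv_pos.2 (innerZ_pos a x)).le) (Finset.mem_univ a))
  have hl := Real.log_le_log (inv_pos.2 (mul_pos hc (Real.exp_pos _))) hZ
  rw [Real.log_inv, Real.log_mul hc.ne' (Real.exp_pos _).ne', Real.log_exp] at hl
  rw [softMM, div_le_iff₀ hb, add_mul, div_mul_cancel₀ _ hb.ne']
  linarith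

lemma polyBd_softMM (hb : 0 < b) : PolyBd (softMM (A := A) (B := B) b) := by
  set K := Real.log (Fintype.card A) / b + Real.log (Fintype.card B) / b
  have hA : 0 ≤ Real.log (Fintype.card A) / b :=
    div_nonneg (Real.log_natCast_nonneg _) hb.le
  have hB : 0 ≤ Real.log (Fintype.card B) / b :=
    div_nonneg (Real.log_natCast_nonneg _) hb.le
  refine ⟨1 + K, 1, fun x => ?_⟩
  have hx : ∀ i, |x i| ≤ ‖x‖ := fun i => (Real.norm_eq_abs _).symm.trans_le (norm_le_pi_norm x i)
  obtain ⟨a₀⟩ := ‹Nonempty A›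
  obtain ⟨β₀⟩ := ‹Nonempty B›
  have h1 := le_softMM hb (x := x) (m := -‖x‖) fun a => ⟨β₀, (abs_le.1 (hx _)).1⟩
  have h2 := softMM_le hb (x := x) (m := ‖x‖) (a := a₀) fun β => (abs_le.1 (hx _)).2
  have : 0 ≤ K * ‖x‖ := mul_nonneg (add_nonneg hA hB) (norm_nonneg x)
  rw [pow_one, abs_le]
  constructor <;> simp only [K] at * <;> linarith

variable {κ : Type*} [Fintype κ]

/-- Gordon's comparison. -/
theorem heat_softMM_le (hb : 0 < b) (bk : κ → Bool) (L : A × B → κ → ℝ)
    (h1 : ∀ i j, i.1 ≠ j.1 → 0 ≤ covDiff bk L i j)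
    (h2 : ∀ i j, i.1 = j.1 → covDiff bk L i j ≤ 0) (h3 : ∀ i, covDiff bk L i i = 0) :
    heat bk L (softMM b) 0 ≤ heat bk L (softMM b) 1 := by
  classical
  have hmono : MonotoneOn (heat bk L (softMM b)) (Icc 0 1) := by
    refine monotoneOn_of_hasDerivWithinAt_nonneg (convex_Icc _ _)
      (f' := heat bk L fun x => (∑ i, ∑ j, covDiff bk L i j * softD2 b i j x) / 2)
      (Wishart.continuousOn_heat bk L continuous_softMM (polyBd_softMM hb)) (fun u hu => ?_)
      fun u hu => ?_
    · rw [interior_Icc] at hu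
      exact (Wishart.hasDerivAt_heat bk L (hd_softMM hb.ne') hd_softD1 continuous_softMM
        continuous_softD1 continuous_softD2 (polyBd_softMM hb)
        (fun i => ⟨1, 0, fun x => by simpa using abs_softD1_le i x⟩)
        (fun i j => ⟨|b| * 4, 0, fun x => by simpa using abs_softD2_le i j x⟩) hu).hasDerivWithinAt
    · refine integral_nonneg fun g => div_nonneg (Finset.sum_nonneg fun i _ =>
        Finset.sum_nonneg fun j _ => ?_) (by norm_num)
      set x := fld bk L u g
      obtain ⟨s1, -⟩ := softD1_mem (b := b) i x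
      obtain ⟨s3, s4⟩ := softD1_mem (b := b) j x
      by_cases hij : i = j
      · subst hij; simp [h3]
      by_cases ha : i.1 = j.1
      · refine mul_nonneg_of_nonpos_of_nonpos (h2 i j ha) ?_
        rw [softD2, if_neg hij, if_pos ha]
        refine mul_nonpos_of_nonneg_of_nonpos hb.le ?_
        nlinarith [mul_nonneg s1 (sub_nonneg.2 s4), mul_nonneg s1 s3]
      · refine mul_nonneg (h1 i j ha) ?_
        rw [softD2, if_neg hij, if_neg ha]
        refine mul_nonneg hb.le ?_
        simpa using mul_nonneg s1 s3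
  exact hmono (left_mem_Icc.2 zero_le_one) (right_mem_Icc.2 zero_le_one) zero_le_one

end Vale.Agent.P166.NW.Spec
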