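import Vale.Agent.P166.NW.Spec.Base
import Vale.Agent.P166.NW.PressureGap
import Vale.Agent.P166.Seq

/-!
From Gaussian patterns to deterministic spectra with Haar eigenvectors: rotating all patterns by a
Haar matrix keeps their law and averages the pressure of `-t N⁻¹ Gᵀ G` over eigenvectors, and good
draws of the spectrum are admissible, so self-averaging carries the limit to every admissible
sequence of eigenvalues of the reflected Marchenko–Pastur law.
-/

noncomputable section

open MeasureTheory ProbabilityTheory Filter Matrix WithLp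
open scoped Topology BoundedContinuousFunction

namespace Vale.Agent.P166.NW.Spec

open Vale.Agent.P157 Vale.Agent.P157.Parisi

variable {M N : ℕ}

local instance (M N : ℕ) : IsProbabilityMeasure (patterns M N) := isProb_patterns M N

/-- An orthogonal matrix as an isometry of Euclidean space. -/
def actIso (W : OG N) : EuclideanSpace ℝ (Fin N) ≃ₗᵢ[ℝ] EuclideanSpace ℝ (Fin N) where
  toFun x := toLp 2 (act W x.ofLp)
  map_add' x y := by ext i; simp [act, Matrix.mulVec_add]
  map_smul' c x := by ext i; simp [act, Matrix.mulVec_smul]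
  invFun x := toLp 2 (act W⁻¹ x.ofLp)
  left_inv x := by simp [act_inv_act]
  right_inv x := by simp [← act_mul, act_one]
  norm_map' x := by
    refine (pow_left_inj₀ (norm_nonneg _) (norm_nonneg _) two_ne_zero).1 ?_
    rw [EuclideanSpace.real_norm_sq_eq, EuclideanSpace.real_norm_sq_eq]
    simpa [dotProduct, sq] using act_dot W x.ofLp x.ofLp

theorem gauss_act (W : OG N) :
    MeasurePreserving (act W) (Measure.pi fun _ : Fin N => gaussianReal 0 1)
      (Measure.pi fun _ : Fin N => gaussianReal 0 1) := by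
  have h1 : MeasurePreserving (toLp 2 : (Fin N → ℝ) → EuclideanSpace ℝ (Fin N))
      (Measure.pi fun _ => gaussianReal 0 1) (stdGaussian _) :=
    ⟨by fun_prop, map_pi_eq_stdGaussian⟩
  have h2 : MeasurePreserving (actIso W) (stdGaussian _) (stdGaussian _) :=
    ⟨(actIso W).continuous.measurable, stdGaussian_map (actIso W)⟩
  have h3 : MeasurePreserving (ofLp : EuclideanSpace ℝ (Fin N) → Fin N → ℝ)
      (stdGaussian _) (Measure.pi fun _ => gaussianReal 0 1) :=
    ⟨by fun_prop, by
      rw [← map_pi_eq_stdGaussian, Measure.map_map (by fun_prop) (by fun_prop)]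
      exact Measure.map_id⟩
  exact h3.comp (h2.comp h1)

/-- Rotating all patterns. -/
def rot (W : OG N) (g : Fin M → Fin N → ℝ) : Fin M → Fin N → ℝ := fun a => act W⁻¹ (g a)

theorem continuous_rot :
    Continuous fun p : OG N × (Fin M → Fin N → ℝ) => rot p.1 p.2 :=
  continuous_pi fun a => continuous_act2 continuous_fst.inv
    ((continuous_apply a).comp continuous_snd)

theorem rot_preserving :
    MeasurePreserving (fun p : OG N × (Fin M → Fin N → ℝ) => rot p.1 p.2)
      ((orthHaar N).prod (patterns M N)) (patterns M N) :=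
  measurePreserving_snd.comp ((MeasurePreserving.id (orthHaar N)).skew_product
    (g := fun W g => rot W g) continuous_rot.measurable
    (Eventually.of_forall fun W => (measurePreserving_pi _ _ fun _ => gauss_act W⁻¹).map_eq))

/-- Averaging over rotations keeps the mean. -/
theorem rot_mean {f : (Fin M → Fin N → ℝ) → ℝ} (hf : Integrable f (patterns M N)) :
    Integrable (fun g => ∫ W, f (rot W g) ∂orthHaar N) (patterns M N) ∧
      ∫ g, ∫ W, f (rot W g) ∂orthHaar N ∂patterns M N = ∫ g, f g ∂patterns M N := by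
  have hp := rot_preserving (M := M) (N := N)
  have hi : Integrable (fun p => f (rot p.1 p.2)) ((orthHaar N).prod (patterns M N)) :=
    hp.integrable_comp_of_integrable hf
  refine ⟨hi.integral_prod_right, ?_⟩
  rw [← integral_prod_symm (fun p : OG N × (Fin M → Fin N → ℝ) => f (rot p.1 p.2)) hi]
  conv_rhs => rw [← hp.map_eq]
  rw [integral_map hp.measurable.aemeasurable]
  rw [hp.map_eq]
  exact hf.aestronglyMeasurable

/-- The pressure of `-(θ/β) N⁻¹ Gᵀ G` at inverse temperature `β`. -/
def wishP (θ : ℝ) (g : Fin M → Fin N → ℝ) : ℝ := logZ (quadPot θ) g / N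

theorem continuous_wishP (θ : ℝ) : Continuous (wishP (M := M) (N := N) θ) := by
  unfold wishP logZ dot quadPot
  exact (Continuous.log (by fun_prop) fun g => (div_pos
    (Finset.sum_pos (fun _ _ => Real.exp_pos _) Finset.univ_nonempty) (by positivity)).ne').div_const _

theorem gram_form (g : Fin M → Fin N → ℝ) (y : Fin N → ℝ) :
    y ⬝ᵥ gram g *ᵥ y = (N : ℝ)⁻¹ * ∑ a, (g a ⬝ᵥ y) ^ 2 := by
  rw [gram, smul_mulVec, dotProduct_smul, ← mulVec_mulVec, dotProduct_mulVec, vecMul_transpose,
    smul_eq_mul, dotProduct]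
  exact congrArg _ (Finset.sum_congr rfl fun a _ => (sq _).symm)

/-- The eigenvectors of `N⁻¹ Gᵀ G`, as rows. -/
def eigU (g : Fin M → Fin N → ℝ) : OG N :=
  (⟨((gram_posSemidef g).isHermitian.eigenvectorUnitary : Matrix (Fin N) (Fin N) ℝ),
    (gram_posSemidef g).isHermitian.eigenvectorUnitary.2⟩ : OG N)⁻¹

theorem spec_form (g : Fin M → Fin N → ℝ) (y : Fin N → ℝ) :
    ∑ i, specVals g i * act (eigU g) y i ^ 2 = y ⬝ᵥ gram g *ᵥ y := by
  have h := (gram_posSemidef g).isHermitian.spectral_theorem
  rw [Unitary.conjStarAlgAut_apply] at h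
  conv_rhs => rw [h, ← mulVec_mulVec, ← mulVec_mulVec, dotProduct_mulVec, ← mulVec_transpose]
  simp only [dotProduct, mulVec_diagonal, Function.comp_apply, RCLike.ofReal_real_eq_id, id]
  refine Finset.sum_congr rfl fun i _ => ?_
  have e : ((eigU g : OG N) : Matrix (Fin N) (Fin N) ℝ) =
      ((gram_posSemidef g).isHermitian.eigenvectorUnitary : Matrix (Fin N) (Fin N) ℝ)ᵀ := rfl
  simp only [act, e, specVals, Matrix.star_eq_conjTranspose,
    conjTranspose_eq_transpose_of_trivial]
  ring

/-- The reflected spectrum. -/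
def lamOf (t : ℝ) (g : Fin M → Fin N → ℝ) : Fin N → ℝ := fun i => -t * specVals g i

theorem wishP_rot (β t : ℝ) (g : Fin M → Fin N → ℝ) (W : OG N) :
    wishP (β * t) (rot W g) = pressure β (lamOf t g) (eigU g * W) := by
  rw [wishP, logZ, pressure_eq,
    ← Real.log_div (part_pos β (lamOf t g) (eigU g * W)).ne' (by positivity), part]
  congr 3
  refine Finset.sum_congr rfl fun s _ => congrArg _ ?_
  have e : en (lamOf t g) (eigU g * W) s =
      -t * (act W (spin s) ⬝ᵥ gram g *ᵥ act W (spin s)) := by
    rw [en_eq, ← spec_form, Finset.mul_sum]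
    simp only [lamOf, act_mul, mul_assoc]
  have d : ∀ a, dot (rot W g a) (unitVec s) = g a ⬝ᵥ act W (spin s) / Real.sqrt N := fun a => by
    rw [← act_inv_dot]
    simp only [dot, unitVec, sv, spin, rot, dotProduct, Finset.sum_div, mul_div_assoc]
  simp only [d, quadPot, div_pow, Real.sq_sqrt (Nat.cast_nonneg N)]
  rw [e, gram_form]
  simp only [Finset.mul_sum]
  exact Finset.sum_congr rfl fun a _ => by ring

/-- Haar averaging of the pressure of the patterns. -/
theorem integral_wishP_rot (β t : ℝ) (g : Fin M → Fin N → ℝ) :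
    ∫ W, wishP (β * t) (rot W g) ∂orthHaar N = meanP β (lamOf t g) := by
  simp only [wishP_rot]
  exact integral_mul_left_eq_self (μ := orthHaar N) (pressure β (lamOf t g)) _

/-- The pressure lies between zero and a single configuration. -/
theorem wishP_abs_le {θ : ℝ} (hθ : 0 ≤ θ) (hN : 0 < N) (g : Fin M → Fin N → ℝ) (σ : Cube N) :
    |wishP θ g| ≤ Real.log 2 + θ / 2 * ((∑ a, dot (g a) (unitVec σ) ^ 2) / N) := by
  have hNr : (0 : ℝ) < N := by exact_mod_cast hN
  set Z := ∑ τ : Cube N, Real.exp (∑ a, quadPot θ (dot (g a) (unitVec τ)))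
  have hZ : Real.exp (∑ a, quadPot θ (dot (g a) (unitVec σ))) ≤ Z :=
    Finset.single_le_sum
      (f := fun τ : Cube N => Real.exp (∑ a, quadPot θ (dot (g a) (unitVec τ))))
      (fun τ _ => (Real.exp_pos _).le) (Finset.mem_univ σ)
  have hZ2 : Z ≤ 2 ^ N := by
    refine (Finset.sum_le_sum (g := fun _ => (1 : ℝ)) fun τ _ => Real.exp_le_one_iff.2
      (Finset.sum_nonpos fun a _ => quadPot_nonpos hθ _)).trans (le_of_eq ?_)
    simp [Cube]
  have hZ0 : 0 < Z := lt_of_lt_of_le (Real.exp_pos _) hZ
  have hl := Real.log_le_log (Real.exp_pos _) hZ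
  rw [Real.log_exp] at hl
  have hh : logZ (quadPot θ) g = Real.log Z - N * Real.log 2 := by
    rw [logZ, Real.log_div hZ0.ne' (by positivity), Real.log_pow]
  have hu : Real.log Z ≤ N * Real.log 2 := by
    rw [← Real.log_pow]; exact Real.log_le_log hZ0 hZ2
  have hs : ∑ a, quadPot θ (dot (g a) (unitVec σ)) =
      -(θ / 2) * ∑ a, dot (g a) (unitVec σ) ^ 2 := by
    rw [Finset.mul_sum]
    exact Finset.sum_congr rfl fun a _ => by unfold quadPot; ring
  rw [hs] at hl
  rw [wishP, abs_div, abs_of_pos hNr, div_le_iff₀ hNr, hh, abs_of_nonpos (by linarith), add_mul,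
    mul_assoc, div_mul_cancel₀ _ hNr.ne']
  linarith

/-- The fourth Gaussian moment. -/
def moment4 : ℝ := ∫ z, z ^ 4 ∂gaussianReal 0 1

/-- The second moment of the pressure is bounded. -/
theorem wishP_sq {θ α : ℝ} (hθ : 0 ≤ θ) (hN : 0 < N) (hM : (M : ℝ) ≤ α * N) (d : ℝ) :
    Integrable (fun g => (wishP (M := M) (N := N) θ g - d) ^ 2) (patterns M N) ∧
      ∫ g, (wishP θ g - d) ^ 2 ∂patterns M N ≤
        2 * (Real.log 2 + |d|) ^ 2 + θ ^ 2 / 2 * (α ^ 2 * moment4) := by
  have hNr : (0 : ℝ) < N := by exact_mod_cast hN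
  set σ : Cube N := fun _ => true
  have h4 : Integrable (fun z : ℝ => z ^ 4) (gaussianReal 0 1) := by
    have := ((memLp_id_gaussianReal (μ := 0) (v := 1) 4)).integrable_norm_pow (p := 4) (by norm_num)
    simpa [pow_abs, abs_of_nonneg, Even.pow_nonneg (show Even 4 by decide)] using this
  have hu := Vale.Agent.P157.Parisi.Main.sum_unitVec_sq hN σ
  have hi : ∀ a, Integrable (fun g : Fin M → Fin N → ℝ => dot (g a) (unitVec σ) ^ 4)
      (patterns M N) := fun a =>
    (measurePreserving_eval (fun _ : Fin M => gam (Fin N)) a).integrable_comp_of_integrable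
      (Cavity.integrable_dot_unit hu h4)
  have hv : ∀ a, ∫ g : Fin M → Fin N → ℝ, dot (g a) (unitVec σ) ^ 4 ∂patterns M N = moment4 :=
    fun a => (integral_comp_eval (μ := fun _ : Fin M => gam (Fin N)) (i := a)
      (Cavity.integrable_dot_unit hu h4).aestronglyMeasurable).trans
      (Cavity.integral_dot_unit hu (by fun_prop : Measurable fun z : ℝ => z ^ 4))
  set Y := fun g : Fin M → Fin N → ℝ => 2 * (Real.log 2 + |d|) ^ 2 +
    θ ^ 2 / 2 * ((M : ℝ) / N ^ 2 * ∑ a, dot (g a) (unitVec σ) ^ 4)
  have hY : Integrable Y (patterns M N) :=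
    (integrable_const _).add (((integrable_finsetSum _ fun a _ => hi a).const_mul _).const_mul _)
  have hle : ∀ g, (wishP θ g - d) ^ 2 ≤ Y g := by
    intro g
    set S := ∑ a, dot (g a) (unitVec σ) ^ 2
    have h1 : |wishP θ g - d| ≤ (Real.log 2 + |d|) + θ / 2 * (S / N) := by
      have := wishP_abs_le hθ hN g σ
      linarith [abs_sub (wishP θ g) d]
    have h2 : (S / N) ^ 2 ≤ (M : ℝ) / N ^ 2 * ∑ a, dot (g a) (unitVec σ) ^ 4 := by
      have := sq_sum_le_card_mul_sum_sq (s := Finset.univ)
        (f := fun a => dot (g a) (unitVec σ) ^ 2)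
      simp only [← pow_mul, Finset.card_univ, Fintype.card_fin] at this
      rw [div_pow, div_mul_eq_mul_div]
      exact div_le_div_of_nonneg_right this (by positivity)
    have h3 := pow_le_pow_left₀ (abs_nonneg _) h1 2
    rw [sq_abs] at h3
    have h5 := mul_le_mul_of_nonneg_left h2 (show (0 : ℝ) ≤ θ ^ 2 / 2 by positivity)
    simp only [Y]
    nlinarith [sq_nonneg ((Real.log 2 + |d|) - θ / 2 * (S / N))]
  have hint : Integrable (fun g => (wishP (M := M) (N := N) θ g - d) ^ 2) (patterns M N) :=
    hY.mono' ((continuous_wishP θ).sub continuous_const |>.pow 2).aestronglyMeasurable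
      (Eventually.of_forall fun g => by
        rw [Real.norm_eq_abs, abs_of_nonneg (sq_nonneg _)]; exact hle g)
  refine ⟨hint, (integral_mono hint hY hle).trans ?_⟩
  simp only [Y]
  rw [integral_add (integrable_const _)
      (((integrable_finsetSum _ fun a _ => hi a).const_mul _).const_mul _),
    integral_const, probReal_univ, one_smul, integral_const_mul, integral_const_mul,
    integral_finsetSum _ fun a _ => hi a]
  simp only [hv, Finset.sum_const, Finset.card_univ, Fintype.card_fin, nsmul_eq_mul]
  refine add_le_add le_rfl (mul_le_mul_of_nonneg_left ?_ (by positivity))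
  rw [← mul_assoc]
  refine mul_le_mul_of_nonneg_right ?_ (integral_nonneg fun z => by positivity)
  rw [div_mul_eq_mul_div, div_le_iff₀ (by positivity), ← mul_pow, ← sq]
  exact pow_le_pow_left₀ (Nat.cast_nonneg M) hM 2

/-- A bound on the expected pressure. -/
theorem meanP_abs_le {β : ℝ} (hβ : 0 ≤ β) (hN : 0 < N) {lam : Fin N → ℝ} {C : ℝ}
    (hC : ∀ i, |lam i| ≤ C) : |meanP β lam| ≤ β / 2 * C := by
  have hNr : (0 : ℝ) < N := by exact_mod_cast hN
  have hz : ∀ (U : OG N) s, en (0 : Fin N → ℝ) U s = 0 := fun U s => by simp [en_eq]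
  have hp : ∀ U : OG N, |pressure β lam U| ≤ β / 2 * C := by
    intro U
    have hb : ∀ s, |en lam U s| ≤ C * N := fun s => by
      have := quad_abs_le hC U (spin s); rwa [spin_dot] at this
    have h0 : pressure β (0 : Fin N → ℝ) U = 0 := by
      simp [pressure_eq, part, hz]
    have h1 := pressure_tangent β (0 : Fin N → ℝ) lam U U
    have h2 := pressure_tangent β lam (0 : Fin N → ℝ) U U
    have e1 := gib_mono β lam U (F := fun s => en lam U s - en (0 : Fin N → ℝ) U s)
      (G := fun _ => C * N) fun s => by rw [hz, sub_zero]; exact (abs_le.1 (hb s)).2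
    have e2 := gib_mono β (0 : Fin N → ℝ) U (F := fun s => en (0 : Fin N → ℝ) U s - en lam U s)
      (G := fun _ => C * N) fun s => by rw [hz, zero_sub]; linarith [(abs_le.1 (hb s)).1]
    rw [gib_const] at e1 e2
    have hc : 0 ≤ β / 2 / N := by positivity
    have e : β / 2 / N * (C * N) = β / 2 * C := by field_simp
    rw [h0] at h1 h2
    exact abs_le.2 ⟨by linarith [mul_le_mul_of_nonneg_left e2 hc],
      by linarith [mul_le_mul_of_nonneg_left e1 hc]⟩
  have := norm_integral_le_of_norm_le_const (μ := orthHaar N) (f := pressure β lam)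
    (C := β / 2 * C) (Eventually.of_forall fun U => hp U)
  simpa [meanP] using this

/-- Diagonal choice. -/
theorem exists_diagonal {P : ℕ → ℕ → ℝ} (h0 : ∀ k N, 0 ≤ P k N)
    (h : ∀ k, Tendsto (P k) atTop (𝓝 0)) :
    ∃ k : ℕ → ℕ, Tendsto k atTop atTop ∧ Tendsto (fun N => P (k N) N) atTop (𝓝 0) := by
  classical
  set k := fun N => Nat.findGreatest (fun j : ℕ => P j N ≤ 1 / ((j : ℝ) + 1)) N with hk
  have hge : Tendsto k atTop atTop := tendsto_atTop.2 fun K => by
    filter_upwards [(h K).eventually (ge_mem_nhds (show (0 : ℝ) < 1 / ((K : ℝ) + 1) by positivity)),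
      eventually_ge_atTop K] with N hN hKN
    exact Nat.le_findGreatest hKN hN
  refine ⟨k, hge, squeeze_zero' (Eventually.of_forall fun N => h0 _ N) ?_
    (tendsto_one_div_add_atTop_nhds_zero_nat.comp hge)⟩
  filter_upwards [hge.eventually_gt_atTop 0] with N hN
  exact Nat.findGreatest_of_ne_zero rfl hN.ne'

/-- Draws whose spectrum is `1/(k+1)`-close to the law. -/
def good (α C a : ℝ) (k : ℕ) : Set (Fin M → Fin N → ℝ) :=
  {g | (∀ n ∈ Finset.range (k + 1),
      |(∑ i, (specVals g i + (n + 1 : ℝ))⁻¹) / N - mpStieltjes α (n + 1)| ≤ 1 / ((k : ℝ) + 1)) ∧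
    (∀ i, specVals g i ≤ C) ∧ ∀ i, a - 1 / ((k : ℝ) + 1) ≤ specVals g i}

theorem specVals_nonneg (g : Fin M → Fin N → ℝ) (i : Fin N) : 0 ≤ specVals g i :=
  (gram_posSemidef g).eigenvalues_nonneg i

/-- Good draws have probability tending to one. -/
theorem good_tendsto (hR : ResolventStmt) (hE : EdgeStmt) {α C a : ℝ} (hα : 0 < α)
    (hC : Tendsto (fun N : ℕ => (patterns ⌊α * N⌋₊ N).real {g | ∃ i, C < specVals g i})
      atTop (𝓝 0))
    (ha : a ≤ max (Real.sqrt α - 1) 0 ^ 2) (k : ℕ) :
    Tendsto (fun N : ℕ => (patterns ⌊α * N⌋₊ N).real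
      (good (M := ⌊α * N⌋₊) (N := N) α C a k)ᶜ) atTop (𝓝 0) := by
  set δ := 1 / ((k : ℝ) + 1) with hδ
  have hδ0 : 0 < δ := by positivity
  set R := fun (N n : ℕ) => {g : Fin ⌊α * N⌋₊ → Fin N → ℝ |
    δ < |(∑ i, (specVals g i + (n + 1 : ℝ))⁻¹) / N - mpStieltjes α (n + 1)|}
  set E := fun N : ℕ => {g : Fin ⌊α * N⌋₊ → Fin N → ℝ | ∃ i, specVals g i < a - δ}
  have hE' : Tendsto (fun N : ℕ => (patterns ⌊α * N⌋₊ N).real (E N)) atTop (𝓝 0) := by
    rcases le_or_gt α 1 with h1 | h1
    · have h0 : max (Real.sqrt α - 1) 0 = 0 :=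
        max_eq_right (by linarith [Real.sqrt_le_one.2 h1])
      have ha0 : a ≤ 0 := by simpa [h0] using ha
      have : ∀ N, E N = ∅ := fun N => Set.eq_empty_iff_forall_notMem.2 fun g ⟨i, hi⟩ => by
        linarith [specVals_nonneg g i]
      simp [this]
    · have h0 : max (Real.sqrt α - 1) 0 = Real.sqrt α - 1 :=
        max_eq_left (by linarith [Real.one_le_sqrt.2 h1.le])
      rw [h0] at ha
      refine squeeze_zero (fun N => measureReal_nonneg) (fun N => ?_) (hE α h1 δ hδ0)
      exact measureReal_mono fun g ⟨i, hi⟩ => ⟨i, by linarith⟩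
  have hR' : Tendsto (fun N : ℕ => ∑ n ∈ Finset.range (k + 1), (patterns ⌊α * N⌋₊ N).real (R N n))
      atTop (𝓝 (∑ _n ∈ Finset.range (k + 1), (0 : ℝ))) :=
    tendsto_finsetSum _ fun n _ => hR α hα (n + 1) (by positivity) δ hδ0
  have hlim := (hR'.add hC).add hE'
  simp only [Finset.sum_const_zero, add_zero] at hlim
  refine squeeze_zero (fun N => measureReal_nonneg) (fun N => ?_) hlim
  have hsub : (good (M := ⌊α * N⌋₊) (N := N) α C a k)ᶜ ⊆
      ((⋃ n ∈ Finset.range (k + 1), R N n) ∪ {g | ∃ i, C < specVals g i}) ∪ E N := by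
    intro g hg
    by_contra h
    simp only [Set.mem_union, Set.mem_iUnion, R, E, Set.mem_ofPred_eq, not_or, not_exists,
      not_lt] at h
    exact hg ⟨fun n hn => h.1.1 n hn, h.1.2, h.2⟩
  refine (measureReal_mono hsub).trans ?_
  refine (measureReal_union_le _ _).trans (add_le_add ?_ le_rfl)
  refine (measureReal_union_le _ _).trans (add_le_add ?_ le_rfl)
  exact measureReal_biUnion_finset_le _ _

theorem support_reflect (μ : Measure ℝ) {t : ℝ} (ht : t ≠ 0) :
    (μ.map fun x => -t * x).support = (fun x => -t * x) '' μ.support := by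
  set e := Homeomorph.mulLeft₀ (-t) (neg_ne_zero.2 ht)
  have he : (fun x => -t * x) = e := rfl
  rw [he]
  ext x
  rw [e.image_eq_preimage_symm, Set.mem_preimage, Measure.mem_support_iff_forall,
    Measure.mem_support_iff_forall]
  constructor
  · intro h U hU
    have := h (e '' U) (by rw [← e.apply_symm_apply x]; exact e.isOpenMap.image_mem_nhds hU)
    rwa [show (e : ℝ → ℝ) = e.toMeasurableEquiv from rfl, MeasurableEquiv.map_apply,
      Set.preimage_image_eq _ e.toMeasurableEquiv.injective] at this
  · intro h U hU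
    rw [show (e : ℝ → ℝ) = e.toMeasurableEquiv from rfl, MeasurableEquiv.map_apply]
    exact h _ (e.continuous.continuousAt.preimage_mem_nhds (by rwa [e.apply_symm_apply]))

/-- The reflected law is a compactly supported probability measure with right edge
`-t min supp μ`. -/
theorem reflect_facts {α : ℝ} {μ : Measure ℝ} (hμ : IsMP α μ) {t : ℝ} (ht : 0 < t) :
    IsProbabilityMeasure (μ.map fun x => -t * x) ∧ IsCompact (μ.map fun x => -t * x).support ∧
      sSup (μ.map fun x => -t * x).support = -t * sInf μ.support := by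
  obtain ⟨hp, hc, -, -⟩ := hμ
  have hcont : Continuous fun x : ℝ => -t * x := by fun_prop
  refine ⟨Measure.isProbabilityMeasure_map hcont.aemeasurable, ?_, ?_⟩
  · rw [support_reflect μ ht.ne']; exact hc.image hcont
  · rw [support_reflect μ ht.ne']
    exact (Antitone.map_csInf_of_continuousAt hcont.continuousAt
      (fun x y h => by nlinarith) (Measure.nonempty_support (IsProbabilityMeasure.ne_zero μ))
      hc.bddBelow).symm

/-- Good draws are admissible. -/
theorem good_admissible (hW : WeakStmt) {α C t : ℝ} {μ : Measure ℝ} (hμ : IsMP α μ) (ht : 0 < t)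
    {k : ℕ → ℕ} (hk : Tendsto k atTop atTop) {g : ∀ N : ℕ, Fin ⌊α * N⌋₊ → Fin N → ℝ}
    (hg : ∀ᶠ N in atTop, g N ∈ good α C (sInf μ.support) (k N)) :
    Admissible (μ.map fun x => -t * x) fun N => lamOf t (g N) := by
  have hsmall : Tendsto (fun N => 1 / ((k N : ℝ) + 1)) atTop (𝓝 0) :=
    tendsto_one_div_add_atTop_nhds_zero_nat.comp hk
  have hres : ∀ n : ℕ, Tendsto (fun N => (∑ i, (specVals (g N) i + (n + 1 : ℝ))⁻¹) / (N : ℝ)) atTop
      (𝓝 (mpStieltjes α (n + 1))) := by
    intro n
    rw [tendsto_iff_norm_sub_tendsto_zero]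
    refine squeeze_zero' (Eventually.of_forall fun N => norm_nonneg _) ?_ hsmall
    filter_upwards [hg, hk.eventually_ge_atTop n] with N hN hn
    exact hN.1 n (Finset.mem_range.2 (Nat.lt_succ_of_le hn))
  refine ⟨fun f => ?_, fun ε hε => ?_, -t * C, ?_⟩
  · rw [integral_map (by fun_prop) f.continuous.aestronglyMeasurable]
    exact hW α C μ hμ (fun N => specVals (g N))
      (hg.mono fun N hN i => ⟨specVals_nonneg _ i, hN.2.1 i⟩) hres
      (f.compContinuous ⟨fun x => -t * x, by fun_prop⟩)
  · rw [(reflect_facts hμ ht).2.2]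
    filter_upwards [hg, hsmall.eventually (gt_mem_nhds (div_pos hε ht))] with N hN hs i
    have h := hN.2.2 i
    rw [lt_div_iff₀ ht] at hs
    simp only [lamOf]
    nlinarith
  · filter_upwards [hg] with N hN i
    simp only [lamOf]
    nlinarith [hN.2.1 i]

/-- The transfer for a given law. -/
theorem transfer_law (hR : ResolventStmt) (hN : NormStmt) (hE : EdgeStmt) (hS : SupportStmt)
    (hW : WeakStmt) {α β t ℓ : ℝ} (hα : 0 < α) (hβ : 0 < β) (ht : 0 < t)
    (hF : Tendsto (meanPressure isingLaw α (quadPot (β * t))) atTop (𝓝 ℓ))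
    {μ : Measure ℝ} (hμ : IsMP α μ) :
    (∃ lam, Admissible (μ.map fun x => -t * x) lam) ∧
      ∀ lam, Admissible (μ.map fun x => -t * x) lam →
        Tendsto (fun N => ∫ U, |pressure β (lam N) U - ℓ| ∂orthHaar N) atTop (𝓝 0) := by
  classical
  obtain ⟨C₀, hC₀⟩ := hN α hα
  set C := max C₀ 0
  have hC : Tendsto (fun N : ℕ => (patterns ⌊α * N⌋₊ N).real {g | ∃ i, C < specVals g i})
      atTop (𝓝 0) := by
    refine squeeze_zero (fun N => measureReal_nonneg) (fun N => ?_) hC₀
    exact measureReal_mono fun g ⟨i, hi⟩ => ⟨i, (le_max_left C₀ 0).trans_lt hi⟩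
  set a := sInf μ.support
  obtain ⟨k, hk, hbad⟩ := exists_diagonal
    (P := fun k N => (patterns ⌊α * N⌋₊ N).real (good (M := ⌊α * N⌋₊) (N := N) α C a k)ᶜ)
    (fun k N => measureReal_nonneg) (good_tendsto hR hE hα hC (hS α hα μ hμ))
  set G := fun N : ℕ => good (M := ⌊α * N⌋₊) (N := N) α C a (k N)
  set g₀ : ∀ N : ℕ, Fin ⌊α * N⌋₊ → Fin N → ℝ := fun N =>
    if h : (G N).Nonempty then h.some else 0
  have hg₀ : ∀ᶠ N in atTop, g₀ N ∈ G N := by
    filter_upwards [hbad.eventually (gt_mem_nhds one_pos)] with N h1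
    have hne : (G N).Nonempty := by
      by_contra h
      simp [G, Set.not_nonempty_iff_eq_empty.1 h] at h1
    simp only [g₀, dif_pos hne]
    exact hne.some_mem
  set ν := μ.map fun x => -t * x
  obtain ⟨hνp, hνc, -⟩ := reflect_facts hμ ht
  have had₀ : Admissible ν fun N => lamOf t (g₀ N) := good_admissible hW hμ ht hk hg₀
  refine ⟨⟨_, had₀⟩, ?_⟩
  set d := fun N : ℕ => meanP β (lamOf t (g₀ N))
  -- the averaged pressure is close to `d` with probability tending to one
  have hA : ∀ ε > 0, Tendsto (fun N : ℕ => (patterns ⌊α * N⌋₊ N).real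
      {g | ε < |meanP β (lamOf t g) - d N|}) atTop (𝓝 0) := by
    intro ε hε
    set A := fun N : ℕ => {g : Fin ⌊α * N⌋₊ → Fin N → ℝ | ε < |meanP β (lamOf t g) - d N|}
    set g₁ : ∀ N : ℕ, Fin ⌊α * N⌋₊ → Fin N → ℝ := fun N =>
      if h : (A N ∩ G N).Nonempty then h.some else g₀ N
    have hg₁ : ∀ᶠ N in atTop, g₁ N ∈ G N := by
      filter_upwards [hg₀] with N hN
      simp only [g₁]
      split_ifs with h
      · exact h.some_mem.2
      · exact hN
    have hu := meanP_universal hβ.le hνc (good_admissible hW hμ ht hk hg₁) had₀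
    refine squeeze_zero' (Eventually.of_forall fun N => measureReal_nonneg) ?_ hbad
    filter_upwards [(tendsto_zero_iff_abs_tendsto_zero _).1 hu |>.eventually (gt_mem_nhds hε)]
      with N hN
    refine measureReal_mono fun g hg hg' => ?_
    have hne : (A N ∩ G N).Nonempty := ⟨g, hg, hg'⟩
    have h2 : ε < |meanP β (lamOf t (g₁ N)) - d N| := by
      simp only [g₁, dif_pos hne]; exact hne.some_mem.1
    exact (lt_irrefl ε) (h2.trans hN)
  -- hence `d` has the limit of the mean pressure
  have hd : Tendsto d atTop (𝓝 ℓ) := by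
    set K := 2 * (Real.log 2 + β / 2 * (t * C)) ^ 2 +
      (β * t) ^ 2 / 2 * (α ^ 2 * moment4)
    have hdiff : Tendsto (fun N => meanPressure isingLaw α (quadPot (β * t)) N - d N)
        atTop (𝓝 0) := by
      rw [Metric.tendsto_nhds]
      intro e he
      set ε := e / 4
      have hε : 0 < ε := by positivity
      set η := ε / (|K| + 1)
      have hη : 0 < η := by positivity
      filter_upwards [(hA ε hε).eventually (gt_mem_nhds (show 0 < 4 * η * ε by positivity)),
        hg₀, eventually_gt_atTop 0] with N hP hgN hN0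
      have hM : ((⌊α * N⌋₊ : ℕ) : ℝ) ≤ α * N := Nat.floor_le (by positivity)
      have hdN : |d N| ≤ β / 2 * (t * C) := by
        refine meanP_abs_le hβ.le hN0 fun i => ?_
        simp only [lamOf, abs_mul, abs_neg, abs_of_pos ht,
          abs_of_nonneg (specVals_nonneg (g₀ N) i)]
        exact mul_le_mul_of_nonneg_left (hgN.2.1 i) ht.le
      obtain ⟨hQi, hQ⟩ := wishP_sq (M := ⌊α * N⌋₊) (θ := β * t) (α := α) (by positivity) hN0 hM
        (d N)
      have hWi : Integrable (wishP (M := ⌊α * N⌋₊) (N := N) (β * t)) (patterns ⌊α * N⌋₊ N) := by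
        have hqm : Measurable (quadPot (β * t)) := by unfold quadPot; fun_prop
        exact (integrable_logZ (by positivity) hN0 hqm
          fun z => ⟨le_rfl, quadPot_nonpos (by positivity) z⟩).div_const _
      obtain ⟨hXi, hX⟩ := rot_mean hWi
      obtain ⟨hQi', hQ'⟩ := rot_mean hQi
      simp only [integral_wishP_rot] at hXi hX
      set S := toMeasurable (patterns ⌊α * N⌋₊ N) {g | ε < |meanP β (lamOf t g) - d N|}
      have hS : MeasurableSet S := measurableSet_toMeasurable _ _
      have hpt : ∀ g, |meanP β (lamOf t g) - d N| ≤ ε +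
          η * (∫ W, (wishP (β * t) (rot W g) - d N) ^ 2 ∂orthHaar N) +
            S.indicator (fun _ => 1 / (4 * η)) g := by
        intro g
        by_cases hg : g ∈ S
        · have hcw : Continuous fun W => wishP (β * t) (rot W g) :=
            (continuous_wishP _).comp (continuous_rot.comp (continuous_id.prodMk continuous_const))
          rw [← integral_wishP_rot, Set.indicator_of_mem hg]
          have i1 : Integrable (fun W => |wishP (β * t) (rot W g) - d N|) (orthHaar N) :=
            integrable_cont (hcw.sub continuous_const).abs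
          have i2 : Integrable (fun W => (wishP (β * t) (rot W g) - d N) ^ 2) (orthHaar N) :=
            integrable_cont ((hcw.sub continuous_const).pow 2)
          have key : ∫ W, |wishP (β * t) (rot W g) - d N| ∂orthHaar N ≤
              ∫ W, (η * (wishP (β * t) (rot W g) - d N) ^ 2 + 1 / (4 * η)) ∂orthHaar N := by
            refine integral_mono i1 ((i2.const_mul η).add (integrable_const _)) fun W => ?_
            simp only
            rw [← sq_abs (wishP (β * t) (rot W g) - d N)]
            generalize |wishP (β * t) (rot W g) - d N| = x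
            have h : η * x ^ 2 + 1 / (4 * η) - x = η * (x - 1 / (2 * η)) ^ 2 := by
              field_simp; ring
            nlinarith [mul_nonneg hη.le (sq_nonneg (x - 1 / (2 * η)))]
          rw [integral_add (i2.const_mul η) (integrable_const _), integral_const_mul,
            integral_const, probReal_univ, one_smul] at key
          have h0 : (∫ W, wishP (β * t) (rot W g) ∂orthHaar N) - d N =
              ∫ W, (wishP (β * t) (rot W g) - d N) ∂orthHaar N := by
            rw [integral_sub (integrable_cont hcw) (integrable_const _)]; simp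
          rw [h0]
          linarith [(abs_integral_le_integral_abs (μ := orthHaar N)
            (f := fun W => wishP (β * t) (rot W g) - d N))]
        · have h1 : ¬ε < |meanP β (lamOf t g) - d N| := fun h => hg (subset_toMeasurable _ _ h)
          rw [Set.indicator_of_notMem hg]
          have : 0 ≤ η * ∫ W, (wishP (β * t) (rot W g) - d N) ^ 2 ∂orthHaar N :=
            mul_nonneg hη.le (integral_nonneg fun W => sq_nonneg _)
          linarith [not_lt.1 h1]
      have iS : Integrable (S.indicator fun _ => 1 / (4 * η)) (patterns ⌊α * N⌋₊ N) :=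
        (integrable_const _).indicator hS
      have iQ : Integrable (fun g => ε + η * ∫ W, (wishP (β * t) (rot W g) - d N) ^ 2 ∂orthHaar N)
          (patterns ⌊α * N⌋₊ N) := (integrable_const ε).add (hQi'.const_mul η)
      have hb := integral_mono (hXi.sub (integrable_const (d N))).abs (iQ.add iS) hpt
      simp only [Pi.sub_apply, Pi.add_apply] at hb
      rw [integral_add iQ iS,
        integral_add (integrable_const _) (hQi'.const_mul η), integral_const, probReal_univ,
        one_smul, integral_const_mul, hQ', integral_indicator_const _ hS] at hb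
      have e0 : meanPressure isingLaw α (quadPot (β * t)) N - d N =
          ∫ g, (meanP β (lamOf t g) - d N) ∂patterns ⌊α * N⌋₊ N := by
        have hqm : Measurable (quadPot (β * t)) := by unfold quadPot; fun_prop
        rw [integral_sub hXi (integrable_const _), hX, meanPressure_logZ hqm]
        simp [wishP, integral_const_mul, div_eq_inv_mul]
      rw [Real.dist_eq, sub_zero, e0]
      refine (abs_integral_le_integral_abs.trans hb).trans_lt ?_
      have hK : η * ∫ g, (wishP (β * t) g - d N) ^ 2 ∂patterns ⌊α * N⌋₊ N ≤ ε := by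
        have h1 : 2 * (Real.log 2 + |d N|) ^ 2 ≤ 2 * (Real.log 2 + β / 2 * (t * C)) ^ 2 := by
          gcongr
        have h2 : ∫ g, (wishP (β * t) g - d N) ^ 2 ∂patterns ⌊α * N⌋₊ N ≤ |K| + 1 := by
          have hKe : K = 2 * (Real.log 2 + β / 2 * (t * C)) ^ 2 +
            (β * t) ^ 2 / 2 * (α ^ 2 * moment4) := rfl
          linarith [le_abs_self K]
        refine (mul_le_mul_of_nonneg_left h2 hη.le).trans (le_of_eq ?_)
        exact div_mul_cancel₀ _ (by positivity)
      have hPS : (patterns ⌊α * N⌋₊ N).real S • (1 / (4 * η)) < ε := by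
        rw [smul_eq_mul, mul_one_div, div_lt_iff₀ (by positivity), measureReal_def,
          measure_toMeasurable, ← measureReal_def]
        linarith
      have : ε + ε + ε < e := by simp only [ε]; linarith
      linarith
    simpa using hF.sub hdiff
  -- self-averaging carries the limit to all admissible sequences
  intro lam hlam
  obtain ⟨c, hc⟩ := self_averaging β hβ.le _ hνc
  have hm : Tendsto (fun N => meanP β (lam N)) atTop (𝓝 ℓ) := by
    simpa [d] using (meanP_universal hβ.le hνc hlam had₀).add hd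
  have hlim := ((hc lam hlam).const_mul 2).add (hm.sub_const ℓ).abs
  simp only [mul_zero, sub_self, abs_zero, add_zero] at hlim
  refine squeeze_zero (fun N => integral_nonneg fun U => abs_nonneg _) (fun N => ?_) hlim
  have hi : Integrable (pressure β (lam N)) (orthHaar N) := integrable_cont (continuous_pressure _ _)
  have h1 : |meanP β (lam N) - c N| ≤ ∫ U, |pressure β (lam N) U - c N| ∂orthHaar N := by
    refine le_trans (le_of_eq ?_) abs_integral_le_integral_abs
    rw [meanP, integral_sub hi (integrable_const _)]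
    simp
  calc ∫ U, |pressure β (lam N) U - ℓ| ∂orthHaar N
      ≤ ∫ U, (|pressure β (lam N) U - c N| + |c N - ℓ|) ∂orthHaar N :=
        integral_mono (hi.sub (integrable_const _)).abs
          ((hi.sub (integrable_const _)).abs.add (integrable_const _)) fun U => abs_sub_le _ _ _
    _ = (∫ U, |pressure β (lam N) U - c N| ∂orthHaar N) + |c N - ℓ| := by
        rw [integral_add (f := fun U => |pressure β (lam N) U - c N|) (g := fun _ => |c N - ℓ|)
          (hi.sub (integrable_const _)).abs (integrable_const _)]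
        simp
    _ ≤ _ := by
        have := abs_sub_le (c N) (meanP β (lam N)) ℓ
        rw [abs_sub_comm (c N) (meanP β (lam N))] at this
        linarith

/-- The transfer: a limit of the expected pressure of Gaussian patterns is the limit in `L¹` of
the pressure of every admissible sequence of eigenvalues of the reflected Marchenko–Pastur law,
and such sequences exist. -/
theorem transfer (hR : ResolventStmt) (hN : NormStmt) (hE : EdgeStmt) (hS : SupportStmt)
    (hW : WeakStmt) (hX : ExistsStmt) {α β t ℓ : ℝ} (hα : 0 < α) (hβ : 0 < β) (ht : 0 < t)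
    (hF : Tendsto (meanPressure isingLaw α (quadPot (β * t))) atTop (𝓝 ℓ)) :
    ∃ μ, IsMP α μ ∧ (∃ lam, Admissible (μ.map fun x => -t * x) lam) ∧
      ∀ lam, Admissible (μ.map fun x => -t * x) lam →
        Tendsto (fun N => ∫ U, |pressure β (lam N) U - ℓ| ∂orthHaar N) atTop (𝓝 0) := by
  obtain ⟨μ, hμ⟩ := hX α hα
  exact ⟨μ, hμ, transfer_law hR hN hE hS hW hα hβ ht hF hμ⟩

end Vale.Agent.P166.NW.Spec
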